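import Vale.Agent.P057T.Sb.Defs2

/-! The start in one box with positions on a mesh. -/

set_option linter.all false

open Finset
open scoped BigOperators

namespace Vale.Agent.P057T.Sb

open Vale.Agent.P057L Vale.Agent.P057T.SV

namespace Bxs

variable {m : ℕ}

theorem grd_sc {n p L : ℕ} (f g : Vz m → ℝ) {r : ℝ} (f0 : ∀ x, 0 ≤ f x) (h : ∀ x, f x ≤ r * g x) :
    grdV n p L f ≤ r ^ p ^ n * grdV n p L g := by
  unfold grdV gridA
  rw [mul_expect]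
  refine expect_le_expect fun W _ => ?_
  refine (prod_le_prod (fun c _ => f0 _) fun c _ => h _).trans_eq ?_
  rw [prod_mul_distrib, prod_const]
  simp

theorem grd_pt {n p L : ℕ} (hp : 1 ≤ p) (f : Vz m → ℝ) (h : grdV n p L f ≠ 0) :
    ∃ z : Vz m, (∀ l, |z l| ≤ n * L) ∧ f z ≠ 0 := by
  obtain ⟨W, hW, h1⟩ := exists_ne_zero_of_expect_ne_zero h
  refine ⟨_, fun l => ?_, prod_ne_zero_iff.1 h1 (fun _ => ⟨0, hp⟩) (mem_univ _)⟩
  rw [Finset.sum_apply]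
  refine (abs_sum_le_sum_abs _ _).trans ((sum_le_card_nsmul _ _ (L : ℤ) fun i _ => ?_).trans_eq ?_)
  · have h2 := Fintype.mem_piFinset.1 (Fintype.mem_piFinset.1 (Fintype.mem_piFinset.1 hW i) ⟨0, hp⟩) l
    rw [rg, mem_Ico] at h2
    rw [abs_of_nonneg h2.1]
    exact h2.2.le
  · simp

theorem pos {N D d S T K : ℕ} (d1 : 1 ≤ d) (dD : d ≤ D) (S1 : 1 ≤ S) (SN : S ≤ N) (x : Vz m)
    (hx : ∀ l, |x l| ≤ K * N) (hT : (K + 2 * D) * N ≤ S * T) :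
    ∃ s : Vz m, (∀ l, |(s l : ℝ)| ≤ S) ∧ (∀ l, |(x + (d : ℤ) • s) l| ≤ (K + D) * N) ∧
      ∃ u ∈ Fintype.piFinset fun _ : Fin m => Ico (0 : ℤ) D ×ˢ Icc (-(T : ℤ)) T,
        x + (d : ℤ) • s = fun l => (u l).1 + d * S * (u l).2 := by
  have d0 : (0 : ℤ) < d := by exact_mod_cast d1
  have S0 : (0 : ℤ) < S := by exact_mod_cast S1
  have dD' : (d : ℤ) ≤ D := by exact_mod_cast dD
  have SN' : (S : ℤ) ≤ N := by exact_mod_cast SN
  have hT' : ((K : ℤ) + 2 * D) * N ≤ S * T := by exact_mod_cast hT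
  have a : ∀ l, |-(x l / d % S)| ≤ S := fun l => by
    rw [abs_neg, abs_of_nonneg (Int.emod_nonneg _ S0.ne')]
    exact (Int.emod_lt_of_pos _ S0).le
  have b : ∀ l, |x l + d * -(x l / d % S)| ≤ (K + D) * N := fun l => by
    refine (abs_add_le _ _).trans ?_
    rw [abs_mul, abs_of_pos d0, add_mul]
    exact add_le_add (hx l) (mul_le_mul dD' ((a l).trans SN') (abs_nonneg _) (by positivity))
  have e : ∀ l, x l + d * -(x l / d % S) = x l % d + d * S * (x l / d / S) := fun l => by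
    rw [Int.emod_def, Int.emod_def]; ring
  refine ⟨fun l => -(x l / d % S), fun l => by exact_mod_cast a l, b,
    fun l => (x l % d, x l / d / S), Fintype.mem_piFinset.2 fun l => ?_, funext e⟩
  have r0 := Int.emod_nonneg (x l) d0.ne'
  have r1 := Int.emod_lt_of_pos (x l) d0
  refine mem_product.2 ⟨mem_Ico.2 ⟨r0, r1.trans_le dD'⟩, mem_Icc.2 (abs_le.1 ?_)⟩
  have b1 := b l
  rw [e] at b1
  generalize x l % d = r at *
  generalize x l / d / S = t at *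
  have c1 : |d * S * t| ≤ |r + d * S * t| + |r| := by
    have := abs_sub (r + d * S * t) r
    rwa [add_sub_cancel_left] at this
  rw [abs_mul, abs_mul, abs_of_pos d0, abs_of_pos S0, abs_of_nonneg r0] at c1
  have c2 : (S : ℤ) * |t| ≤ d * S * |t| := by
    rw [mul_assoc]; exact le_mul_of_one_le_left (by positivity) d0
  have c3 : (D : ℤ) ≤ D * N := le_mul_of_one_le_right (by positivity) (le_trans S0 SN')
  exact le_of_mul_le_mul_left (by linarith) S0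

theorem pw2 {η : ℝ} (h : 0 < η) {q : ℕ} (hq : 1 ≤ q) : (1 + η) ^ q + η ≤ (1 + 2 * η) ^ q := by
  obtain ⟨q, rfl⟩ : ∃ q', q = q' + 1 := ⟨q - 1, by omega⟩
  have a : 1 ≤ (1 + η) ^ q := one_le_pow₀ (by linarith)
  have b : (1 + η) ^ q ≤ (1 + 2 * η) ^ q := pow_le_pow_left₀ (by linarith) (by linarith) q
  rw [pow_succ, pow_succ]
  nlinarith

theorem pw4 {η G : ℝ} (h : 0 < η) (h1 : η ≤ 1 / 40) {q : ℕ}
    (hG : (1 + 4 * η) ^ q ≤ (1 / (1 - η)) ^ q * G) : (1 + 2 * η) ^ q ≤ G := by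
  have a : 0 < 1 - η := by linarith
  have r : 0 < (1 / (1 - η)) ^ q := by positivity
  refine le_of_mul_le_mul_left (le_trans ?_ hG) r
  rw [← mul_pow]
  refine pow_le_pow_left₀ (by positivity) ?_ q
  rw [one_div, inv_mul_le_iff₀ a]
  nlinarith

theorem le_exp (t : ℝ) : t ≤ Real.exp t := by linarith [Real.add_one_le_exp t]

theorem cardn {X : ℝ} {m D K T c0 c2 C : ℕ} {E E0 : ℝ} (X7 : 7 ≤ X) (p4 : (1 : ℝ) ≤ D)
    (KX : (K : ℝ) + 2 * D ≤ X) (hmX : (m : ℝ) ≤ X ^ 2) (hE : E = Real.exp (X ^ c2))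
    (hE0 : E0 = Real.exp (X ^ c0)) (e2 : c0 + 4 ≤ c2) (eC : c2 + 4 ≤ C)
    (t2 : (T : ℝ) ≤ (K + 2 * D) * (2 * E * E0) + 1) :
    (2 : ℝ) * (⌊X ^ (c0 + 1)⌋₊ * (3 * (D * (D * (2 * T + 1)) ^ m))) ≤ Real.exp (X ^ C) := by
  have X2 : 2 ≤ X := by linarith
  have p3 : (0 : ℝ) ≤ K := Nat.cast_nonneg _
  have ex : ∀ {a b : ℝ}, a ≤ b → Real.exp a ≤ Real.exp b := fun h => Real.exp_le_exp.2 h
  have E1 : 1 ≤ E := hE ▸ Real.one_le_exp (by positivity)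
  have E2 : 1 ≤ E0 := hE0 ▸ Real.one_le_exp (by positivity)
  have DX : (D : ℝ) ≤ X := by linarith
  have EE : 1 ≤ E * E0 := one_le_mul_of_one_le_of_one_le E1 E2
  have a1 : (D : ℝ) * (2 * T + 1) ≤ X ^ 3 * (E * E0) := by
    have b1 : (T : ℝ) ≤ X * (2 * E * E0) + 1 :=
      t2.trans (by gcongr)
    have b2 : 2 * (T : ℝ) + 1 ≤ 7 * X * (E * E0) := by nlinarith
    have b3 : 7 * X * (E * E0) ≤ X ^ 2 * (E * E0) := by gcongr; nlinarith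
    calc (D : ℝ) * (2 * T + 1) ≤ X * (X ^ 2 * (E * E0)) := by gcongr; exact b2.trans b3
      _ = _ := by ring
  have a2 : X ^ 3 * (E * E0) ≤ Real.exp (X ^ (c2 + 1)) := by
    refine (mul_le_mul_of_nonneg_right (le_exp _) (by positivity)).trans ?_
    rw [hE, hE0, ← Real.exp_add, ← Real.exp_add]
    have b1 : X ^ 3 + X ^ c0 ≤ X ^ c2 := add_pw_le X2 (by omega) (by omega)
    have b2 : X ^ c2 + X ^ c2 ≤ X ^ (c2 + 1) := add_pw_le X2 (by omega) (by omega)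
    exact ex (by linarith)
  have a3 : ((D : ℝ) * (2 * T + 1)) ^ m ≤ Real.exp (X ^ (c2 + 3)) := by
    refine (pow_le_pow_left₀ (by positivity) (a1.trans a2) m).trans ?_
    rw [← Real.exp_nat_mul]
    refine ex ((mul_le_mul_of_nonneg_right hmX (by positivity)).trans_eq ?_)
    ring
  have a4 : (⌊X ^ (c0 + 1)⌋₊ : ℝ) ≤ X ^ (c0 + 1) := Nat.floor_le (by positivity)
  have a5 : 6 * (⌊X ^ (c0 + 1)⌋₊ : ℝ) * D ≤ Real.exp (X ^ (c0 + 3)) := by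
    refine le_trans ?_ (le_exp _)
    calc 6 * (⌊X ^ (c0 + 1)⌋₊ : ℝ) * D ≤ X * X ^ (c0 + 1) * X := by gcongr; linarith
      _ = _ := by ring
  calc _ = 6 * (⌊X ^ (c0 + 1)⌋₊ : ℝ) * D * ((D : ℝ) * (2 * T + 1)) ^ m := by ring
    _ ≤ Real.exp (X ^ (c0 + 3)) * Real.exp (X ^ (c2 + 3)) :=
      mul_le_mul a5 a3 (by positivity) (Real.exp_pos _).le
    _ ≤ _ := by
      rw [← Real.exp_add]
      exact ex (add_pw_le X2 (by omega) (by omega))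

theorem num {X η : ℝ} {m N L D K c0 c1 c2 C : ℕ} (X7 : 7 ≤ X) (p4 : (1 : ℝ) ≤ D) (η0 : 0 < η)
    (Xe : 1 ≤ X * η) (KX : (K : ℝ) + 2 * D ≤ X) (hmX : (m : ℝ) ≤ X ^ 2) (e2 : c2 = c1 + c0 + 4)
    (eC : c2 + 4 ≤ C) (l1 : 1 ≤ L) (LN : L ≤ N) (l5 : N ≤ L * Real.exp (X ^ c0))
    (hN : X ^ C ≤ Real.log N) : ∃ S T : ℕ, 1 ≤ S ∧ S ≤ N ∧ (K + 2 * D) * N ≤ S * T ∧
      (∀ (p L' : ℕ) (b : ℝ), (p : ℝ) ≤ X ^ c0 → L ≤ L' → 0 ≤ b → b ≤ Real.exp (X ^ c1) →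
        p * (m * (S * b / L')) ≤ η) ∧
      (2 : ℝ) * (⌊X ^ (c0 + 1)⌋₊ * (3 * (D * (D * (2 * T + 1)) ^ m))) ≤ Real.exp (X ^ C) := by
  have X2 : 2 ≤ X := by linarith
  have p3 : (0 : ℝ) ≤ K := Nat.cast_nonneg _
  have ex : ∀ {a b : ℝ}, a ≤ b → Real.exp a ≤ Real.exp b := fun h => Real.exp_le_exp.2 h
  have L0 : (0 : ℝ) < L := by exact_mod_cast l1
  have m0 : (0 : ℝ) ≤ m := Nat.cast_nonneg _
  obtain ⟨E, hE⟩ : ∃ E : ℝ, E = Real.exp (X ^ c2) := ⟨_, rfl⟩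
  obtain ⟨E0, hE0⟩ : ∃ E : ℝ, E = Real.exp (X ^ c0) := ⟨_, rfl⟩
  have E1 : 1 ≤ E := hE ▸ Real.one_le_exp (by positivity)
  have E2 : 1 ≤ E0 := hE0 ▸ Real.one_le_exp (by positivity)
  have LE : 1 ≤ L / E := by
    rw [le_div_iff₀ (by positivity), one_mul]
    refine le_of_mul_le_mul_right (le_trans ?_ l5) (Real.exp_pos _)
    rw [hE, ← Real.exp_add]
    exact (ex (add_pw_le X2 (by omega) (by omega))).trans (exp_le_of_log (by positivity) hN)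
  rw [← hE0] at l5
  obtain ⟨s1, s2, s3⟩ := St1.floor_bd LE
  generalize ⌊(L : ℝ) / E⌋₊ = S at s1 s2 s3
  rw [le_div_iff₀ (by positivity)] at s2
  rw [div_le_iff₀ (by positivity)] at s3
  have S0 : (0 : ℝ) ≤ S := Nat.cast_nonneg _
  have SN : S ≤ N := by
    have : (S : ℝ) ≤ L := le_trans (le_mul_of_one_le_right S0 E1) s2
    exact le_trans (by exact_mod_cast this) LN
  obtain ⟨T, t1, t2⟩ : ∃ T : ℕ, (K + 2 * D) * (2 * E * E0) ≤ (T : ℝ) ∧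
      (T : ℝ) ≤ (K + 2 * D) * (2 * E * E0) + 1 :=
    ⟨_, Nat.le_ceil _, (Nat.ceil_lt_add_one (by positivity)).le⟩
  have hT : (K + 2 * D) * N ≤ S * T := by
    have a : (N : ℝ) ≤ S * (2 * E * E0) := by nlinarith
    have b : ((K : ℝ) + 2 * D) * N ≤ S * T :=
      (mul_le_mul_of_nonneg_left a (by positivity)).trans (by
        rw [mul_left_comm]; exact mul_le_mul_of_nonneg_left t1 S0)
    exact_mod_cast b
  have loss : ∀ (p L' : ℕ) (b : ℝ), (p : ℝ) ≤ X ^ c0 → L ≤ L' → 0 ≤ b → b ≤ Real.exp (X ^ c1) →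
      p * (m * (S * b / L')) ≤ η := fun p L' b hp hL b0 b1 => by
    have L1 : (L : ℝ) ≤ L' := by exact_mod_cast hL
    have a1 : (p : ℝ) * m * X ≤ Real.exp (X ^ (c0 + 3)) := by
      refine le_trans ?_ (le_exp _)
      rw [pow_succ, pow_add]
      gcongr
    have a2 : (p : ℝ) * m * X * b ≤ E := by
      refine (mul_le_mul a1 b1 b0 (Real.exp_pos _).le).trans ?_
      rw [← Real.exp_add, hE]
      exact ex (add_pw_le X2 (by omega) (by omega))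
    have a3 : (p : ℝ) * m * b ≤ η * E := by
      have : 0 ≤ (p : ℝ) * m * b := by positivity
      nlinarith
    rw [← mul_div_assoc, ← mul_div_assoc, div_le_iff₀ (by linarith)]
    nlinarith [mul_le_mul_of_nonneg_left a3 S0, mul_le_mul_of_nonneg_left (s2.trans L1) η0.le]
  exact ⟨S, T, s1, SN, hT, loss, cardn X7 p4 KX hmX hE hE0 (by omega) eC t2⟩

theorem lam (m : ℕ) {D S T n0 K N C M M' L : ℕ} {Z : ℝ} (s1 : 1 ≤ S) (SN : S ≤ N)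
    (hT : (K + 2 * D) * N ≤ S * T) (l2 : L ≤ M') (l3 : M' ≤ M) (l4 : M ≤ N) (hC : K + D ≤ C)
    (hZ : (n0 : ℝ) ≤ Z) : ∃ Λ : Finset (Bool × ℕ × ℕ × Vz m),
      Λ.card ≤ 2 * (n0 * (3 * (D * (D * (2 * T + 1)) ^ m))) ∧
      (∀ a ∈ Λ, 1 ≤ a.2.1 ∧ (a.2.1 : ℝ) ≤ Z ∧ L ≤ a.2.2.1 ∧ a.2.2.1 ≤ N ∧
        ∀ l, |(a.2.2.2 l : ℝ)| ≤ C * N) ∧
      ∀ (b : Bool) (n L' d : ℕ) (x : Vz m), 1 ≤ n → n ≤ n0 → (L' = M ∨ L' = M' ∨ L' = L) → 1 ≤ d →
        d ≤ D → (∀ l, |x l| ≤ K * N) →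
        ∃ s : Vz m, (∀ l, |(s l : ℝ)| ≤ S) ∧ (b, n, L', x + (d : ℤ) • s) ∈ Λ := by
  classical
  let U := Fintype.piFinset fun _ : Fin m => Ico (0 : ℤ) D ×ˢ Icc (-(T : ℤ)) T
  let Q := (univ : Finset Bool) ×ˢ Icc 1 n0 ×ˢ ({M, M', L} : Finset ℕ) ×ˢ Icc 1 D ×ˢ U
  let φ : Bool × ℕ × ℕ × ℕ × (Fin m → ℤ × ℤ) → Bool × ℕ × ℕ × Vz m := fun a =>
    (a.1, a.2.1, a.2.2.1, fun l => (a.2.2.2.2 l).1 + a.2.2.2.1 * S * (a.2.2.2.2 l).2)
  refine ⟨(Q.image φ).filter fun a => 1 ≤ a.2.1 ∧ (a.2.1 : ℝ) ≤ Z ∧ L ≤ a.2.2.1 ∧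
    a.2.2.1 ≤ N ∧ ∀ l, |(a.2.2.2 l : ℝ)| ≤ C * N, ?_, fun a ha => (mem_filter.1 ha).2,
    fun b n L' d x n1 n2 hL d1 d2 hx => ?_⟩
  · refine (card_filter_le _ _).trans (card_image_le.trans ?_)
    have u1 : U.card = (D * (2 * T + 1)) ^ m := by
      have : (Icc (-(T : ℤ)) T).card = 2 * T + 1 := by rw [Int.card_Icc]; omega
      simp [U, Fintype.card_piFinset, this]
    simp only [Q, card_product, u1, card_univ, Fintype.card_bool, Nat.card_Icc,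
      Nat.add_sub_cancel]
    gcongr
    exact card_le_three
  · obtain ⟨s, r1, r2, u, r3, r4⟩ := pos d1 d2 s1 SN x hx hT
    have a1 : L ≤ L' := by omega
    have a2 : L' ≤ N := by omega
    have a3 : (n : ℝ) ≤ Z := le_trans (by exact_mod_cast n2) hZ
    refine ⟨s, r1, mem_filter.2 ⟨mem_image.2 ⟨(b, n, L', d, u), mem_product.2 ⟨mem_univ _,
      mem_product.2 ⟨mem_Icc.2 ⟨n1, n2⟩, mem_product.2 ⟨by simpa using hL,
        mem_product.2 ⟨mem_Icc.2 ⟨d1, d2⟩, r3⟩⟩⟩⟩, by rw [r4]⟩, n1, a3, a1, a2, fun l => ?_⟩⟩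
    have r5 : ((K : ℤ) + D) * N ≤ C * N := by
      refine mul_le_mul_of_nonneg_right ?_ (by positivity)
      exact_mod_cast hC
    exact_mod_cast (r2 l).trans r5

theorem i1 (A : Finset (Vz m)) {η α α1 : ℝ} (η2 : 0 < 1 - η) (α0 : 0 < α) (a1 : (1 - η) * α ≤ α1)
    (x : Vz m) : indV A α1 x ≤ 1 / (1 - η) * indV A α x := by
  unfold indV
  split_ifs
  · rw [one_div_mul_one_div]; exact one_div_le_one_div_of_le (by positivity) a1
  · rw [mul_zero]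

theorem i2 {N : ℕ} (B : Vz m → Prop) [DecidablePred B] {α : ℝ} (α0 : 0 < α) (x : Vz m) :
    indV ((bz m N).filter B) α x ≤ if B x then 1 / α else 0 := by
  unfold indV
  split_ifs with a b
  · exact le_rfl
  · exact absurd (mem_filter.1 a).2 b
  · positivity
  · exact le_rfl

theorem i3 {N D k d : ℕ} {A : Finset (Vz m)} (hA : A ⊆ bz m N) {α : ℝ} (x z : Vz m) (hd : d ≤ D)
    (hz : ∀ l, |z l| ≤ (k + 1 : ℕ) * N) (h : indV A α (x + (d : ℤ) • z) ≠ 0) (l : Fin m) :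
    |x l| ≤ (1 + D * (k + 1) : ℕ) * N := by
  have h2 : x + (d : ℤ) • z ∈ bz m N := by
    by_contra q
    exact h (if_neg fun r => q (hA r))
  have h3 := Fintype.mem_piFinset.1 h2 l
  rw [rg, mem_Ico, Pi.add_apply, Pi.smul_apply, smul_eq_mul] at h3
  have h4 : |(d : ℤ) * z l| ≤ D * ((k + 1 : ℕ) * N) := by
    rw [abs_mul, Nat.abs_cast]
    exact mul_le_mul (by exact_mod_cast hd) (hz l) (abs_nonneg _) (by positivity)
  have h5 := abs_le.1 h4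
  rw [abs_le]
  push_cast at h5 ⊢
  constructor <;> nlinarith

theorem al {X η α β : ℝ} (X7 : 7 ≤ X) (η1 : η ≤ 1 / 40) (hα : Real.exp (-X) ≤ α)
    (a1 : (1 - η) * α ≤ β) : 1 / α ≤ Real.exp X ∧ Real.exp (-X ^ 2) ≤ β := by
  have α0 : 0 < α := (Real.exp_pos _).trans_le hα
  refine ⟨?_, le_trans ?_ a1⟩
  · rw [div_le_iff₀ α0]
    have := mul_le_mul_of_nonneg_left hα (Real.exp_pos X).le
    rwa [← Real.exp_add, add_neg_cancel, Real.exp_zero] at this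
  · have c1 : Real.exp (-X ^ 2) * Real.exp (X ^ 2 - X) = Real.exp (-X) := by
      rw [← Real.exp_add]; ring_nf
    have c2 : 2 ≤ Real.exp (X ^ 2 - X) := by nlinarith [Real.add_one_le_exp (X ^ 2 - X)]
    have c3 := Real.exp_pos (-X ^ 2)
    nlinarith

theorem cs1 {N L d : ℕ} (B : Vz m → Prop) [DecidablePred B] {η α α1 S : ℝ} (η0 : 0 < η)
    (η1 : η ≤ 1 / 40) (α0 : 0 < α) (a1 : (1 - η) * α ≤ α1) (l1 : 1 ≤ L) (x s : Vz m)
    (r1 : ∀ l, |(s l : ℝ)| ≤ S) (g3 : m * (S * (1 / α) / L) ≤ η)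
    (hg : 1 + 4 * η ≤ 𝔼 z ∈ bz m L, indV ((bz m N).filter B) α1 (x + (d : ℤ) • z)) :
    1 + η ≤ 𝔼 z ∈ bz m L, if B (x + (d : ℤ) • s + (d : ℤ) • z) then 1 / α else 0 := by
  have g1 : (1 + 2 * η) ^ 1 ≤ 𝔼 z ∈ bz m L, indV ((bz m N).filter B) α (x + (d : ℤ) • z) :=
    pw4 η0 η1 (by
      rw [pow_one, pow_one, mul_expect]
      exact hg.trans (expect_le_expect fun z _ => i1 _ (by linarith) α0 a1 _))
  have g2 := shift l1 (fun z => indV ((bz m N).filter B) α (x + (d : ℤ) • z))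
    (fun z => ind_bd _ α0 _) s r1
  rw [pow_one] at g1
  refine le_trans (by linarith) (g2.trans (expect_le_expect fun z _ => ?_))
  rw [smul_add, add_comm ((d : ℤ) • z), ← add_assoc]
  exact i2 B α0 _

theorem cs2 {N L d k p : ℕ} (B : Vz m → Prop) [DecidablePred B] {η α α1 S : ℝ} (η0 : 0 < η)
    (η1 : η ≤ 1 / 40) (α0 : 0 < α) (a1 : (1 - η) * α ≤ α1) (l1 : 1 ≤ L) (p1 : 1 ≤ p) (x s : Vz m)
    (r1 : ∀ l, |(s l : ℝ)| ≤ S) (g3 : p * (m * (S * (1 / α) ^ p ^ (k + 1) / L)) ≤ η)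
    (hg : (1 + 4 * η) ^ p ^ (k + 1) ≤
      grdV (k + 1) p L fun z => indV ((bz m N).filter B) α1 (x + (d : ℤ) • z)) :
    (1 + η) ^ p ^ (k + 1) ≤
      grdV (k + 1) p L fun z => if B (x + (d : ℤ) • s + (d : ℤ) • z) then 1 / α else 0 := by
  have η2 : 0 < 1 - η := by linarith
  have α2 : 0 < α1 := lt_of_lt_of_le (by positivity) a1
  have g1 := pw4 η0 η1 (hg.trans (grd_sc _ (fun z => indV ((bz m N).filter B) α (x + (d : ℤ) • z))
    (fun z => (ind_bd _ α2 _).1) fun z => i1 _ η2 α0 a1 _))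
  have g2 := grd_shift (n := k) (p := p) l1
    (fun z => indV ((bz m N).filter B) α (x + (d : ℤ) • z)) (fun z => ind_bd _ α0 _) s r1
  have g4 := pw2 η0 (Nat.one_le_pow (k + 1) p p1)
  have g5 := grd_sc (n := k + 1) (p := p) (L := L) (r := 1)
    (fun z => indV ((bz m N).filter B) α (x + (d : ℤ) • (z + s)))
    (fun z => if B (x + (d : ℤ) • s + (d : ℤ) • z) then 1 / α else 0)
    (fun z => (ind_bd _ α0 _).1) fun z => by
      rw [one_mul, smul_add, add_comm ((d : ℤ) • z), ← add_assoc]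
      exact i2 B α0 _
  rw [one_pow, one_mul] at g5
  exact le_trans (by linarith) (g2.trans g5)

end Bxs

open Bxs

theorem boxs (hS : STARTV) : BOXS := by
  intro k hk
  obtain ⟨η0, h0, h1, C0, hC⟩ := hS k hk
  obtain ⟨η, rfl⟩ : ∃ η, η0 = 4 * η := ⟨η0 / 4, by ring⟩
  have η0 : 0 < η := by linarith
  have η1 : η ≤ 1 / 40 := by linarith
  obtain ⟨D, hD⟩ : ∃ D : ℕ, D = (k + 1).factorial ^ 2 := ⟨_, rfl⟩
  have D1 : 1 ≤ D := hD ▸ Nat.one_le_pow _ _ (Nat.factorial_pos _)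
  rw [← hD] at hC ⊢
  obtain ⟨K, hK⟩ : ∃ K : ℕ, K = 1 + D * (k + 1) := ⟨_, rfl⟩
  obtain ⟨c0, e0⟩ : ∃ c : ℕ, c = 2 * C0 := ⟨_, rfl⟩
  obtain ⟨c1, e1⟩ : ∃ c : ℕ, c = c0 * (k + 1) + 1 := ⟨_, rfl⟩
  obtain ⟨c2, e2⟩ : ∃ c : ℕ, c = c1 + c0 + 4 := ⟨_, rfl⟩
  obtain ⟨C, C1, C2, C3⟩ : ∃ C : ℕ, c2 + 4 ≤ C ∧ K + D ≤ C ∧ ∀ X : ℝ, (C : ℝ) ≤ X →
      7 ≤ X ∧ 1 ≤ X * η ∧ (K : ℝ) + 2 * D ≤ X ∧ (C0 : ℝ) ≤ X ^ 2 ∧ (D : ℝ) ≤ X := by
    refine ⟨c2 + 4 + ⌈1 / η⌉₊ + C0 + K + 2 * D + 7, by omega, by omega, fun X hX => ?_⟩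
    push_cast at hX
    have p1 : (0 : ℝ) ≤ c2 := Nat.cast_nonneg _
    have p2 : (0 : ℝ) ≤ C0 := Nat.cast_nonneg _
    have p3 : (0 : ℝ) ≤ K := Nat.cast_nonneg _
    have p4 : (0 : ℝ) ≤ D := Nat.cast_nonneg _
    have p5 : (0 : ℝ) ≤ ⌈1 / η⌉₊ := Nat.cast_nonneg _
    have p6 : 1 / η ≤ X := by linarith [Nat.le_ceil (1 / η)]
    have p7 : X ≤ X ^ 2 := le_pw (by linarith) (by norm_num)
    exact ⟨by linarith, by rwa [div_le_iff₀ η0] at p6, by linarith, by linarith, by linarith⟩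
  refine ⟨η, η0, η1, C, fun X m N hX hm hmX hN => ?_⟩
  obtain ⟨X7, Xe, KX, CX, DX⟩ := C3 X hX
  have X1 : 1 ≤ X := by linarith
  have ex : ∀ {a b : ℝ}, a ≤ b → Real.exp a ≤ Real.exp b := fun h => Real.exp_le_exp.2 h
  have q0 : (X ^ 2) ^ C0 = X ^ c0 := by rw [← pow_mul, e0]
  have n1 : c0 + 1 ≤ C := by omega
  have n2 : 1 ≤ c1 := by omega
  have n3 : D ≤ C := by omega
  obtain ⟨M, M', L, l1, l2, l3, l4, l5, hA⟩ := hC (X ^ 2) m N CX hm hmX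
    (by rw [q0]; exact (pw_le X1 ((Nat.le_succ _).trans n1)).trans hN)
  clear hC
  rw [q0] at l5 hA
  have LN : L ≤ N := l2.trans (l3.trans l4)
  have N0 : (0 : ℝ) < N := by exact_mod_cast l1.trans LN
  obtain ⟨S, T, s1, SN, hT, loss, hcard⟩ := num (c1 := c1) X7 (by exact_mod_cast D1) η0 Xe KX hmX
    e2 C1 l1 LN l5 hN
  obtain ⟨Λ, k1, k2, mem⟩ := lam m (n0 := ⌊X ^ (c0 + 1)⌋₊) (Z := X ^ C) s1 SN hT l2 l3 l4 C2
    ((Nat.floor_le (by positivity)).trans (pw_le X1 n1))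
  refine ⟨L, Λ, l1, LN, l5.trans (mul_le_mul_of_nonneg_left
    (ex (pw_le X1 ((Nat.le_succ _).trans n1))) (Nat.cast_nonneg _)),
    le_trans (Nat.cast_le.2 k1) (by push_cast; exact hcard), k2, fun α B _ hα hP hc => ?_⟩
  clear k1 k2 hcard
  have α0 : 0 < α := (Real.exp_pos _).trans_le hα
  have Nm : (0 : ℝ) < (N : ℝ) ^ m := by positivity
  have a1 := (le_div_iff₀ Nm).2 hc
  obtain ⟨b1, a2⟩ := al X7 η1 hα a1
  rcases hA _ _ (filter_subset _ _) hP a2 (div_mul_cancel₀ _ Nm.ne') with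
    ⟨x, d, L', d1, d2, hL, hg⟩ | ⟨x, p, r1, r2, hg⟩
  · have dD : d ≤ D := Nat.le_of_dvd D1 d2
    have L1 : L ≤ L' := hL.elim (fun e => e ▸ l2.trans l3) fun e => e ▸ l2
    have L2 : L' ≤ N := hL.elim (fun e => e ▸ l4) fun e => e ▸ l3.trans l4
    obtain ⟨z, z1, z2⟩ := exists_ne_zero_of_expect_ne_zero (lt_of_lt_of_le (by positivity) hg).ne'
    obtain ⟨s, r1, r2⟩ := mem true d L' d x d1 (Nat.le_floor
      ((le_trans (by exact_mod_cast dD) DX).trans (le_pw X1 (Nat.le_add_left _ _))))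
      (hL.imp_right Or.inl) d1 dD (hK ▸ i3 (filter_subset _ _) x z dD (fun l => by
        have h3 := Fintype.mem_piFinset.1 z1 l
        rw [rg, mem_Ico] at h3
        rw [abs_of_nonneg h3.1]
        exact h3.2.le.trans (by exact_mod_cast L2.trans (Nat.le_mul_of_pos_left N k.succ_pos))) z2)
    have g3 := loss 1 L' (1 / α) (by rw [Nat.cast_one]; exact one_le_pow₀ X1) L1 (by positivity)
      (b1.trans (ex (le_pw X1 n2)))
    rw [Nat.cast_one, one_mul] at g3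
    exact ⟨_, r2, Or.inl ⟨rfl, dD.trans n3, cs1 B η0 η1 α0 a1 (l1.trans L1) x s r1 g3 hg⟩⟩
  · obtain ⟨z, z1, z2⟩ := grd_pt r1 _ (lt_of_lt_of_le (by positivity) hg).ne'
    obtain ⟨s, r3, r4⟩ := mem false p L D x r1 (Nat.le_floor (r2.trans (pw_le X1 (Nat.le_succ _))))
      (Or.inr (Or.inr rfl)) D1 le_rfl (hK ▸ i3 (filter_subset _ _) x z le_rfl (fun l => (z1 l).trans
        (by exact_mod_cast Nat.mul_le_mul_left (k + 1) LN)) z2)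
    have g3 := loss p L ((1 / α) ^ p ^ (k + 1)) r2 le_rfl (by positivity) (by
      refine (pow_le_pow_left₀ (by positivity) b1 _).trans ?_
      rw [← Real.exp_nat_mul, e1, pow_succ X, pow_mul, Nat.cast_pow]
      exact ex (mul_le_mul_of_nonneg_right (pow_le_pow_left₀ (Nat.cast_nonneg _) r2 _)
        (zero_le_one.trans X1)))
    exact ⟨_, r4, Or.inr ⟨rfl, cs2 B η0 η1 α0 a1 l1 r1 x s r3 g3 hg⟩⟩

end Vale.Agent.P057T.Sb
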