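import Vale.Agent.P057T.Sb.Defs
import Vale.Agent.P057T.Cfg.Bas

/-! Algebra of the substitutions on boxes. -/

open MvPolynomial Finset
open scoped Real BigOperators

namespace Vale.Agent.P057T.Sb

open Vale.Agent.P057T.Eq Vale.Agent.P057T.Cfg

noncomputable section

set_option linter.unusedSectionVars false

namespace Dilb

variable {R : Type} [CommRing R] {m : ℕ}

theorem le_none (x : Fin m → ℤ) (c : ℤ) : le R (sx x c none) = X none := by
  simp [le, sx, e0, Fintype.sum_option]

theorem le_e0 : le R (e0 m) = X none := le_none 0 0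

theorem le_some (x : Fin m → ℤ) (c : ℤ) (l : Fin m) :
    le R (sx x c (some l)) = C (x l : R) * X none + C (c : R) * X (some l) := by
  simp only [le, sx, Fintype.sum_option, Option.elim]
  congr 1
  rw [sum_eq_single l]
  · rw [if_pos rfl]
  · intro b _ hb
    rw [if_neg hb.symm]
    simp
  · simp

theorem sb_e0 (x : Fin m → ℤ) (c : ℤ) : sb R (sx x c) (le R (e0 m)) = le R (e0 m) := by
  rw [le_e0, sb, aeval_X, le_none]

theorem eval_sb (x z : Fin m → ℤ) (c : ℤ) (Q : MvPolynomial (Option (Fin m)) ℤ) :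
    eval (pt z) (sb ℤ (sx x c) Q) = eval (pt (x + c • z)) Q := by
  induction Q using MvPolynomial.induction_on with
  | C a => simp [sb]
  | add p q hp hq => simp only [map_add, hp, hq]
  | mul_X p v hp =>
    simp only [map_mul, hp, eval_X]
    congr 1
    rw [sb, aeval_X]
    cases v with
    | none => rw [le_none, eval_X]; rfl
    | some l => rw [le_some]; simp [pt]

theorem sb_sb (x : Fin m → ℤ) (Q : MvPolynomial (Option (Fin m)) R) :
    sb R (sx (-x) 1) (sb R (sx x 1) Q) = Q := by
  induction Q using MvPolynomial.induction_on with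
  | C a => simp [sb]
  | add p q hp hq => simp only [map_add, hp, hq]
  | mul_X p v hp =>
    simp only [map_mul, hp]
    congr 1
    cases v with
    | none => simp only [sb, aeval_X, le_none]
    | some l =>
      simp only [sb, aeval_X, le_some, le_none, map_add, map_mul, aeval_C, algebraMap_eq]
      simp

theorem coeff_sc {V : Type} [Fintype V] [DecidableEq V] (f : V → R) (ν : V →₀ ℕ)
    (Q : MvPolynomial V R) :
    coeff ν (aeval (fun v => C (f v) * X v) Q : MvPolynomial V R) =
      (∏ v, f v ^ ν v) * coeff ν Q := by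
  induction Q using MvPolynomial.induction_on' with
  | monomial μ a =>
    have : (aeval (fun v => C (f v) * X v) (monomial μ a) : MvPolynomial V R) =
        C (∏ v, f v ^ μ v) * monomial μ a := by
      rw [aeval_monomial, monomial_eq, Finsupp.prod_fintype _ _ (fun _ => pow_zero _),
        Finsupp.prod_fintype _ _ (fun _ => pow_zero _)]
      simp only [mul_pow, prod_mul_distrib, map_prod, map_pow, algebraMap_eq]
      ring
    rw [this, coeff_C_mul, coeff_monomial]
    split_ifs with h
    · rw [h]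
    · rw [mul_zero, mul_zero]
  | add p q hp hq => simp only [map_add, coeff_add, hp, hq, mul_add]

theorem coeff_sb (d : ℤ) (ν : Option (Fin m) →₀ ℕ) (Q : MvPolynomial (Option (Fin m)) R) :
    coeff ν (sb R (sx 0 d) Q) = (d : R) ^ (ν.degree - ν none) * coeff ν Q := by
  have : (fun v => le R (sx (0 : Fin m → ℤ) d v)) =
      fun v => C (Option.elim v 1 fun _ => (d : R)) * X v := by
    funext v
    cases v with
    | none => rw [le_none]; simp
    | some l => rw [le_some]; simp
  rw [sb, this, coeff_sc, Fintype.prod_option, Finsupp.degree_eq_sum, Fintype.sum_option,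
    Nat.add_sub_cancel_left]
  simp [prod_pow_eq_pow_sum]

variable {ι : Type} [Fintype ι] [DecidableEq ι] {G : GT ι} {s : ℕ}

theorem Ph_sc (d : ℤ) (β : JI G.w (Option (Fin m)) → R) (y : JI G.w (Option (Fin m))) :
    Ph (sx 0 d) β y = (d : R) ^ (y.1.2.degree - y.1.2 none) * β y := by
  rw [Ph, coeff_sb, coeff_pl]

theorem k_le (hG : G.Ok s) (y : JI G.w (Option (Fin m))) : y.1.2.degree - y.1.2 none ≤ s :=
  (Nat.sub_le _ _).trans (JI_deg y ▸ hG.ws _)

theorem om_eq (hG : G.Ok s) (K : ℝ) (y : JI G.w (Option (Fin m))) :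
    om s K y.1.2 = K ^ (y.1.2.degree - y.1.2 none) := by
  rw [om, min_eq_right (k_le hG y)]

theorem om_pos {K : ℝ} (hK : 0 < K) (ν : Option (Fin m) →₀ ℕ) : 0 < om s K ν := pow_pos hK _

/-- the volume after a dilation -/
theorem bm_eq (hG : G.Ok s) (T : AT ι) (K : ℝ) {d : ℝ} (hd : 0 < d) :
    bm G T (om (m := m) s (K / d)) =
      (∏ y : JI G.w (Option (Fin m)), d ^ (y.1.2.degree - y.1.2 none)) *
        bm G T (om (m := m) s K) := by
  unfold bm GT.mn GT.dv
  rw [← mul_assoc]
  congr 1
  have : (jet G (Option (Fin m)) (om s (K / d))).B.submatrix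
      (Subtype.val : {y // y ∈ (univ : Finset (JI G.w (Option (Fin m))))} → _) Subtype.val =
      Matrix.of fun i j : {y // y ∈ (univ : Finset (JI G.w (Option (Fin m))))} =>
        d ^ (i.1.1.2.degree - i.1.1.2 none) * (jet G (Option (Fin m)) (om s K)).B.submatrix
          Subtype.val Subtype.val i j := by
    ext i j
    rw [Matrix.of_apply, Matrix.submatrix_apply, Matrix.submatrix_apply]
    simp only [jet, om_eq hG]
    split_ifs
    · rw [div_pow, inv_div, div_eq_mul_inv, mul_assoc]
    · rw [mul_zero]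
  rw [this, Matrix.det_mul_column, abs_mul, abs_of_pos (prod_pos fun _ _ => pow_pos hd _),
    prod_coe_sort univ fun y : JI G.w (Option (Fin m)) => d ^ (y.1.2.degree - y.1.2 none)]

end Dilb

open Dilb

theorem dilb (hJ : JOK) (hD : DET) : DILB := by
  intro s m ι _ _ G T P K d hG hP hT hU hK hd
  have d1 : (1 : ℝ) ≤ d := by exact_mod_cast hd
  have d0 : (0 : ℝ) < d := one_pos.trans_le d1
  have hb : 0 < bm G T (om (m := m) s K) :=
    mul_pos ((hD s _ _ (hJ s ι _ G _ hG (om_pos hK)).1).1 univ fun a b _ => by simp)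
      (prod_pos fun a _ => inv_pos.2 ((inv_pos.2 hP).trans_le (hT.s1 _)))
  refine ⟨fun x z c β => funext fun a => ?_, fun x β => funext fun y => ?_,
    fun β β' h => funext fun y => ?_, fun β => ?_, hb, ?_⟩
  · rw [ev, pl_Ph, eval_sb, ev]
  · rw [Ph, pl_Ph, sb_sb, coeff_pl]
  · have := congrFun h y
    simp only [Ph_sc] at this
    exact mul_left_cancel₀ (pow_ne_zero _ (by simp; omega)) this
  · unfold bw ww
    refine congrArg (fun u => Real.exp (-π * u)) (sum_congr rfl fun y _ => ?_)
    refine congrArg (fun u => (T.sg y.1.1 * (1 * u - 0)) ^ 2) ?_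
    rw [uv_jet G T _ _ _ (hJ s ι _ G _ hG (om_pos (div_pos hK d0))).2.1,
      uv_jet G T _ _ _ (hJ s ι _ G _ hG (om_pos hK)).2.1, cz_Ph, sb_tp G T (sb_e0 0 d), coeff_sb,
      om_eq hG, om_eq hG, ← mul_assoc, ← mul_pow, Int.cast_natCast,
      div_mul_cancel₀ _ d0.ne']
  · rw [bm_eq hG T K d0]
    refine mul_le_mul_of_nonneg_right ?_ hb.le
    rw [pow_mul, ← card_univ, ← prod_const]
    exact prod_le_prod (fun _ _ => by positivity) fun y _ => pow_le_pow_right₀ d1 (k_le hG y)

end

end Vale.Agent.P057T.Sb
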