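import Vale.Agent.P057T.Sb.Defs
import Vale.Agent.P057T.Cfg.Bas
import Vale.Agent.P057T.L1

/-! Row INVT: the law of the boxes is almost invariant under translations. -/

open MvPolynomial Finset
open scoped Real

namespace Vale.Agent.P057T.Sb

open Vale.Agent.P057T.Eq Vale.Agent.P057T.Cfg Vale.Agent.P057T.L1

noncomputable section

set_option linter.unusedSectionVars false

namespace InvA

section poly

variable {V : Type} {f : V → MvPolynomial V ℝ} {ε : ℝ}

def RR (f : V → MvPolynomial V ℝ) (ε : ℝ) (k : ℕ) (F : MvPolynomial V ℝ) : Prop :=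
  nrm F ≤ 1 ∧ nrm (aeval f F) ≤ (1 + ε) ^ k ∧ nrm (aeval f F - F) ≤ (1 + ε) ^ k - 1

theorem RR.mul {k k' : ℕ} {F F' : MvPolynomial V ℝ} (h : RR f ε k F) (h' : RR f ε k' F') :
    RR f ε (k + k') (F * F') := by
  obtain ⟨h1, h2, h3⟩ := h
  obtain ⟨h4, h5, h6⟩ := h'
  have n1 := nrm_nonneg F
  have n2 := nrm_nonneg F'
  have n3 := nrm_nonneg (aeval f F)
  have n4 := nrm_nonneg (aeval f F')
  have n5 := nrm_nonneg (aeval f F - F)
  have n6 := nrm_nonneg (aeval f F' - F')
  refine ⟨(nrm_mul_le _ _).trans (mul_le_one₀ h1 n2 h4), ?_, ?_⟩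
  · rw [map_mul, pow_add]
    exact (nrm_mul_le _ _).trans (mul_le_mul h2 h5 n4 (n3.trans h2))
  · have e : aeval f (F * F') - F * F' = (aeval f F - F) * aeval f F' + F * (aeval f F' - F') := by
      rw [map_mul]
      ring
    rw [e, pow_add]
    have a1 := (nrm_mul_le (aeval f F - F) (aeval f F')).trans (mul_le_mul h3 h5 n4 (n5.trans h3))
    have a2 := (nrm_mul_le F (aeval f F' - F')).trans (mul_le_mul h1 h6 n6 zero_le_one)
    have a3 := nrm_add_le ((aeval f F - F) * aeval f F') (F * (aeval f F' - F'))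
    linarith

theorem rr_one : RR f ε 0 1 := by
  refine ⟨by simp, by simp, by simp⟩

theorem rr_X (hf : ∀ v, nrm (f v - X v) ≤ ε) (v : V) : RR f ε 1 (X v) := by
  refine ⟨by simp, ?_, ?_⟩
  · rw [aeval_X, pow_one]
    have h1 := nrm_add_le (X v) (f v - X v)
    rw [add_sub_cancel, nrm_X] at h1
    linarith [hf v]
  · rw [aeval_X, pow_one, add_sub_cancel_left]
    exact hf v

theorem rr_monomial (hf : ∀ v, nrm (f v - X v) ≤ ε) (m : V →₀ ℕ) :
    RR f ε m.degree (monomial m 1) := by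
  induction m using Finsupp.induction_linear with
  | zero => simpa using rr_one (f := f) (ε := ε)
  | add m m' ih ih' =>
    have := ih.mul ih'
    rw [monomial_mul, mul_one] at this
    rw [map_add]
    exact this
  | single a k =>
    induction k with
    | zero => simpa using rr_one (f := f) (ε := ε)
    | succ k ihk =>
      have := ihk.mul (rr_X hf a)
      rw [X, monomial_mul, mul_one, ← Finsupp.single_add] at this
      simpa using this

theorem nrm_move (hf : ∀ v, nrm (f v - X v) ≤ ε) (hε : 0 ≤ ε) {d s : ℕ} (hd : d ≤ s)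
    {F : MvPolynomial V ℝ} (hF : F.IsHomogeneous d) :
    nrm (aeval f F - F) ≤ ((1 + ε) ^ s - 1) * nrm F := by
  conv_lhs => rw [F.as_sum, map_sum, ← sum_sub_distrib]
  refine (nrm_sum_le _ _).trans ?_
  rw [nrm, mul_sum]
  refine sum_le_sum fun m hm => ?_
  have e : aeval f (monomial m (coeff m F)) - monomial m (coeff m F) =
      C (coeff m F) * (aeval f (monomial m (1 : ℝ)) - monomial m 1) := by
    have e1 : monomial m (coeff m F) = C (coeff m F) * monomial m (1 : ℝ) := by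
      rw [C_mul_monomial, mul_one]
    rw [e1, map_mul, aeval_C, algebraMap_eq, mul_sub]
  rw [e, nrm_C_mul, mul_comm]
  refine mul_le_mul_of_nonneg_right ((rr_monomial hf m).2.2.trans ?_) (abs_nonneg _)
  have h1 : m.degree = d := by
    by_contra h
    exact mem_support_iff.1 hm (hF.coeff_eq_zero h)
  rw [h1]
  exact sub_le_sub_right (pow_le_pow_right₀ (by linarith) hd) 1

/-- diagonal scaling -/
def sc (k : V → ℝ) : MvPolynomial V ℝ →ₐ[ℝ] MvPolynomial V ℝ := aeval fun v => C (k v) * X v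

theorem sc_monomial (k : V → ℝ) (m : V →₀ ℕ) (c : ℝ) :
    sc k (monomial m c) = monomial m ((m.prod fun v n => k v ^ n) * c) := by
  rw [sc, aeval_monomial, algebraMap_eq, monomial_eq, C_mul, map_finsuppProd]
  simp only [mul_pow, Finsupp.prod_mul, map_pow]
  ring

theorem coeff_sc (k : V → ℝ) (ν : V →₀ ℕ) (F : MvPolynomial V ℝ) :
    coeff ν (sc k F) = (ν.prod fun v n => k v ^ n) * coeff ν F := by
  classical
  induction F using MvPolynomial.induction_on' with
  | monomial m c =>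
    rw [sc_monomial, coeff_monomial, coeff_monomial]
    split_ifs with h
    · rw [h]
    · simp
  | add p q hp hq => rw [map_add, coeff_add, coeff_add, hp, hq, mul_add]

theorem sc_hom (k : V → ℝ) {d : ℕ} {F : MvPolynomial V ℝ} (hF : F.IsHomogeneous d) :
    (sc k F).IsHomogeneous d := by
  have := hF.aeval (fun v => C (k v) * X v) fun v => isHomogeneous_C_mul_X _ _
  rwa [one_mul] at this

end poly

variable {ι V : Type} [Fintype ι] [DecidableEq ι] [Fintype V] [DecidableEq V]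

theorem sum_JI {w : ι → ℕ} {F : ι → MvPolynomial V ℝ} (hF : ∀ a, (F a).IsHomogeneous (w a)) :
    ∑ x : JI w V, |coeff x.1.2 (F x.1.1)| = ∑ a, nrm (F a) := by
  rw [← sum_fiberwise (s := univ) (g := fun x : JI w V => x.1.1)]
  refine sum_congr rfl fun a _ => ?_
  rw [nrm_eq_sum (s := (univ.filter fun x : JI w V => x.1.1 = a).image fun x => x.1.2), sum_image]
  · refine sum_congr rfl fun x hx => ?_
    rw [(mem_filter.1 hx).2]
  · intro x hx y hy h
    have h1 := (mem_filter.1 (mem_coe.1 hx)).2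
    have h2 := (mem_filter.1 (mem_coe.1 hy)).2
    exact Subtype.ext (Prod.ext (h1.trans h2.symm) h)
  · intro ν hν
    have h1 : ν.degree = w a := by
      by_contra h
      exact mem_support_iff.1 hν ((hF a).coeff_eq_zero h)
    exact mem_image.2 ⟨mk a ν h1, mem_filter.2 ⟨mem_univ _, rfl⟩, rfl⟩

theorem sq_move {J : Type} [Fintype J] (u u' : J → ℝ) {κ P : ℝ} (hκ : 0 ≤ κ) (hP : 1 ≤ P)
    (hJ : (Fintype.card J : ℝ) ≤ P) (h : ∑ x, |u' x - u x| ≤ κ * ∑ x, |u x|) :
    ∑ x, u' x ^ 2 ≤ (1 + κ * P) ^ 2 * ∑ x, u x ^ 2 := by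
  have hA : 0 ≤ ∑ x, u x ^ 2 := sum_nonneg fun _ _ => sq_nonneg _
  have h1 : ∑ x, (u' x - u x) ^ 2 ≤ (∑ x, |u' x - u x|) ^ 2 := by
    have := sum_sq_le_sq_sum_of_nonneg (s := univ) (f := fun x => |u' x - u x|)
      fun _ _ => abs_nonneg _
    simpa only [sq_abs] using this
  have h2 : (∑ x, |u x|) ^ 2 ≤ P ^ 2 * ∑ x, u x ^ 2 := by
    refine sq_sum_le_card_mul_sum_sq.trans ?_
    simp only [sq_abs]
    rw [card_univ]
    exact mul_le_mul_of_nonneg_right (hJ.trans (by nlinarith)) hA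
  have h3 : ∑ x, (u' x - u x) ^ 2 ≤ (κ * P) ^ 2 * ∑ x, u x ^ 2 := by
    refine h1.trans ((pow_le_pow_left₀ (sum_nonneg fun _ _ => abs_nonneg _) h 2).trans ?_)
    rw [mul_pow, mul_pow, mul_assoc]
    exact mul_le_mul_of_nonneg_left h2 (sq_nonneg _)
  have h4 : ∑ x, u x * (u' x - u x) ≤ κ * P * ∑ x, u x ^ 2 := by
    refine abs_le_of_sq_le_sq' ?_ (by positivity) |>.2
    refine (sum_mul_sq_le_sq_mul_sq univ _ _).trans ?_
    calc _ ≤ (∑ x, u x ^ 2) * ((κ * P) ^ 2 * ∑ x, u x ^ 2) := mul_le_mul_of_nonneg_left h3 hA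
      _ = _ := by ring
  have h5 : ∑ x, u' x ^ 2 =
      ∑ x, u x ^ 2 + 2 * ∑ x, u x * (u' x - u x) + ∑ x, (u' x - u x) ^ 2 := by
    rw [mul_sum, ← sum_add_distrib, ← sum_add_distrib]
    exact sum_congr rfl fun x _ => by ring
  rw [h5]
  nlinarith

theorem pow_num {ε : ℝ} {s : ℕ} (hε : 0 ≤ ε) (h : s * ε ≤ 1) : (1 + ε) ^ s - 1 ≤ 2 * s * ε := by
  have h1 : (1 + ε) ^ s ≤ Real.exp (s * ε) := by
    rw [Real.exp_nat_mul]
    exact pow_le_pow_left₀ (by linarith) (by linarith [Real.add_one_le_exp ε]) s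
  have h0 : 0 ≤ s * ε := by positivity
  have h2 := Real.abs_exp_sub_one_le (x := s * ε) (by rwa [abs_of_nonneg h0])
  rw [abs_of_nonneg h0] at h2
  linarith [le_abs_self (Real.exp (s * ε) - 1)]

variable {m : ℕ}

def kk (K : ℝ) : Option (Fin m) → ℝ := fun v => v.elim 1 fun _ => K

def ff (y : Fin m → ℝ) : Option (Fin m) → MvPolynomial (Option (Fin m)) ℝ :=
  fun v => v.elim (X none) fun l => X (some l) + C (y l) * X none

theorem le_e0 : le ℝ (e0 m) = X none := by
  simp [le, Fintype.sum_option, e0]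

theorem le_sx (x : Fin m → ℤ) (l : Fin m) :
    le ℝ (sx x 1 (some l)) = C (x l : ℝ) * X none + X (some l) := by
  unfold le
  rw [Fintype.sum_option, sum_eq_single l]
  · simp [sx]
  · intro b _ hb
    simp [sx, hb.symm]
  · simp

theorem le_sx0 (x : Fin m → ℤ) : le ℝ (sx x 1 none) = X none := le_e0

theorem sc_sb {K : ℝ} (hK : K ≠ 0) (x : Fin m → ℤ) (Q : MvPolynomial (Option (Fin m)) ℝ) :
    sc (kk K) (sb ℝ (sx x 1) Q) = aeval (ff fun l => (x l : ℝ) / K) (sc (kk K) Q) := by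
  have : (sc (kk K)).comp (sb ℝ (sx x 1)) =
      (aeval (ff fun l => (x l : ℝ) / K)).comp (sc (kk (m := m) K)) := by
    refine algHom_ext fun v => ?_
    rcases v with _ | l
    · simp [sb, le_sx0, sc, kk, ff]
    · simp only [AlgHom.comp_apply, sb, aeval_X, le_sx, sc, map_add, map_mul, aeval_C,
        algebraMap_eq, kk, ff, Option.elim, C_1, one_mul]
      rw [mul_add, ← mul_assoc, ← C_mul, mul_div_cancel₀ _ hK, add_comm]
  exact congrArg (fun φ => φ Q) this

theorem om_eq {s : ℕ} (K : ℝ) {ν : Option (Fin m) →₀ ℕ} (h : ν.degree ≤ s) :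
    om s K ν = ν.prod fun v n => kk K v ^ n := by
  rw [Finsupp.prod_fintype _ _ fun _ => pow_zero _, Fintype.prod_option, om,
    min_eq_right ((Nat.sub_le _ _).trans h), Finsupp.degree_eq_sum, Fintype.sum_option,
    Nat.add_sub_cancel_left]
  simp only [kk, Option.elim, one_pow, one_mul]
  exact (prod_pow_eq_pow_sum _ _ _).symm

end InvA

open InvA in
theorem invt (hJ : JOK) (hD : DILB) (hM : MASB) : INVT := by
  intro s m ι _ _ G T P K Z δ ε x H hs hC hδ0 hδ1 hε hεP hx hH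
  have hP2 := hs.P2
  have hK : 0 < K := by linarith [hs.K1]
  have hs0 : (0 : ℝ) ≤ s := Nat.cast_nonneg s
  obtain ⟨-, hinv, -, -, hbm, -⟩ := hD s m ι G T P K 1 hs.ok (by linarith) hs.ao hs.un hK le_rfl
  obtain ⟨-, hcard, hmass⟩ := hM s m ι G T P K Z δ hs hC
  obtain ⟨-, hth, -, -⟩ := hJ s ι (Option (Fin m)) G (om s K) hs.ok fun ν => pow_pos hK _
  have hσ : ∀ a, 0 < T.sg a := fun a => (inv_pos.2 (by linarith)).trans_le (hs.ao.s1 a)
  set η : ℝ := 2 * s * ε * P with hη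
  have hη0 : 0 ≤ η := by positivity
  have he : (2 : ℝ) ≤ Real.exp Z := by linarith [Real.add_one_le_exp Z, hs.Z1]
  obtain ⟨s1, m1⟩ := hmass 1 1 0 le_rfl (by rw [Nat.cast_one]; linarith) one_pos (by linarith)
  obtain ⟨s2, m2⟩ := hmass 1 (1 + η) 0 le_rfl (by rw [Nat.cast_one]; linarith) (by linarith)
    (by linarith)
  simp only [Nat.cast_one, one_smul, zero_add, mul_one, one_pow, inv_one] at s1 m1 s2 m2
  have huv : ∀ (β : Bx G m) (y : JI G.w (Option (Fin m))),
      T.sg y.1.1 * uv (jet G _ (om s K)) (jat G T (e0 m) (om s K) univ) β y =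
        coeff y.1.2 (C (T.sg y.1.1) * sc (kk K) (tp G T (e0 m) (cz β) y.1.1)) := by
    intro β y
    rw [uv_jet G T _ _ _ hth, coeff_C_mul, coeff_sc,
      om_eq K ((JI_deg y).le.trans (hs.ok.ws _))]
  have hbw : ∀ (σ : ℝ) (β : Bx G m), bw G T (om s K) σ 0 β = Real.exp (-π * (σ ^ 2 *
      ∑ y : JI G.w (Option (Fin m)),
        (coeff y.1.2 (C (T.sg y.1.1) * sc (kk K) (tp G T (e0 m) (cz β) y.1.1))) ^ 2)) := by
    intro σ β
    unfold bw ww
    rw [mul_sum univ]
    congr 2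
    refine sum_congr rfl fun y _ => ?_
    rw [← huv, Pi.zero_apply, sub_zero, ← mul_pow]
    congr 1
    show T.sg y.1.1 * _ = _
    ring
  have hle : ∀ β : Bx G m, bw G T (om s K) (1 + η) 0 β ≤ bw G T (om s K) 1 0 β := by
    intro β
    rw [hbw, hbw, Real.exp_le_exp]
    refine mul_le_mul_of_nonpos_left (mul_le_mul_of_nonneg_right (by nlinarith)
      (sum_nonneg fun _ _ => sq_nonneg _)) (by linarith [Real.pi_pos])
  have hkey : ∀ β : Bx G m,
      bw G T (om s K) (1 + η) 0 β ≤ bw G T (om s K) 1 0 (Ph (sx (-x) 1) β) := by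
    intro β
    rw [hbw, hbw, Real.exp_le_exp, one_pow, one_mul]
    refine mul_le_mul_of_nonpos_left ?_ (by linarith [Real.pi_pos])
    have he0 : sb ℝ (sx (-x) 1) (le ℝ (e0 m)) = le ℝ (e0 m) := by
      rw [le_e0, sb, aeval_X, le_sx0]
    have hf : ∀ v, nrm (ff (fun l => (((-x) l : ℤ) : ℝ) / K) v - X v) ≤ ε := by
      rintro (_ | l)
      · simpa [ff] using hε
      · simp only [ff, Option.elim, add_sub_cancel_left]
        rw [nrm_C_mul, nrm_X, mul_one, abs_div, abs_of_pos hK, div_le_iff₀ hK, Pi.neg_apply,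
          Int.cast_neg, abs_neg]
        exact hx l
    have hR : ∀ a, (C (T.sg a) * sc (kk K) (tp G T (e0 m) (cz β) a)).IsHomogeneous (G.w a) :=
      fun a => (sc_hom _ (tp_hom hs.ok T _ _ a)).C_mul _
    have hR' : ∀ a, C (T.sg a) * sc (kk K) (tp G T (e0 m) (cz (Ph (sx (-x) 1) β)) a) =
        aeval (ff fun l => (((-x) l : ℤ) : ℝ) / K)
          (C (T.sg a) * sc (kk K) (tp G T (e0 m) (cz β) a)) := by
      intro a
      rw [cz_Ph, sb_tp G T he0, sc_sb hK.ne', map_mul, aeval_C, algebraMap_eq]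
    have hR2 : ∀ a, (C (T.sg a) * sc (kk K) (tp G T (e0 m) (cz (Ph (sx (-x) 1) β)) a) -
        C (T.sg a) * sc (kk K) (tp G T (e0 m) (cz β) a)).IsHomogeneous (G.w a) :=
      fun a => ((sc_hom _ (tp_hom hs.ok T _ _ a)).C_mul _).sub (hR a)
    refine sq_move _ _ (κ := 2 * s * ε) (by positivity) (by linarith) hcard ?_
    simp only [← coeff_sub]
    rw [sum_JI hR2, sum_JI hR, mul_sum]
    refine sum_le_sum fun a _ => ?_
    rw [hR']
    refine (nrm_move hf hε (hs.ok.ws a) (hR a)).trans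
      (mul_le_mul_of_nonneg_right (pow_num hε ?_) (nrm_nonneg _))
    have : 0 ≤ s * ε := by positivity
    nlinarith
  have hinv' : ∀ β : Bx G m, Ph (sx x 1) (Ph (sx (-x) 1) β) = β := by
    intro β
    have := hinv (-x) β
    rwa [neg_neg] at this
  let e : Bx G m ≃ Bx G m := ⟨Ph (sx (-x) 1), Ph (sx x 1), hinv', hinv x⟩
  have hw0 : ∀ σ (β : Bx G m), 0 ≤ bw G T (om s K) σ 0 β := fun σ β => (Real.exp_pos _).le
  have hsm : ∀ {w : Bx G m → ℝ} {h : Bx G m → ℝ}, Summable w → (∀ β, 0 ≤ w β) →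
      (∀ β, 0 ≤ h β ∧ h β ≤ 1) → Summable fun β => w β * h β := fun hw h0 hh =>
    Summable.of_nonneg_of_le (fun β => mul_nonneg (h0 β) (hh β).1)
      (fun β => mul_le_of_le_one_right (h0 β) (hh β).2) hw
  have s3 : Summable fun β => bw G T (om s K) 1 0 (e β) := e.summable_iff.2 s1
  have a1 : ∑' β, bw G T (om s K) 1 0 β * H (Ph (sx x 1) β) =
      ∑' β, bw G T (om s K) 1 0 (e β) * H β := by
    rw [← e.tsum_eq]
    exact tsum_congr fun β => by rw [show Ph (sx x 1) (e β) = β from hinv' β]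
  have a2 : ∑' β, bw G T (om s K) 1 0 β * H β ≤ ∑' β, (bw G T (om s K) 1 0 (e β) * H β +
      (bw G T (om s K) 1 0 β - bw G T (om s K) (1 + η) 0 β)) := by
    refine (hsm s1 (hw0 1) hH).tsum_le_tsum (fun β => ?_)
      ((hsm s3 (fun β => hw0 1 _) hH).add (s1.sub s2))
    have b1 := hle β
    have b2 : bw G T (om s K) (1 + η) 0 β ≤ bw G T (om s K) 1 0 (e β) := hkey β
    have b3 := hH β
    nlinarith [mul_nonneg (sub_nonneg.2 b1) (sub_nonneg.2 b3.2), mul_nonneg (sub_nonneg.2 b2) b3.1]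
  rw [(hsm s3 (fun β => hw0 1 _) hH).tsum_add (s1.sub s2), s1.tsum_sub s2, ← a1] at a2
  have c1 : 1 - P * η ≤ ((1 + η) ^ Fintype.card (JI G.w (Option (Fin m))))⁻¹ := by
    rw [← inv_pow]
    have c2 : 1 - η ≤ (1 + η)⁻¹ := by
      rw [← one_div, le_div_iff₀ (by linarith)]
      nlinarith
    have c3 := one_add_mul_le_pow (a := -η) (by linarith) (Fintype.card (JI G.w (Option (Fin m))))
    have c4 := pow_le_pow_left₀ (a := 1 + -η) (by linarith) (by linarith : 1 + -η ≤ (1 + η)⁻¹)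
      (Fintype.card (JI G.w (Option (Fin m))))
    have c5 := mul_le_mul_of_nonneg_right hcard hη0
    linarith
  have d1 := (abs_le.1 m1).2
  have d2 := (abs_le.1 m2).1
  have d3 := mul_le_mul_of_nonneg_left (mul_le_mul_of_nonneg_left c1 hbm.le) (sub_nonneg.2 hδ1)
  have d4 : 0 ≤ δ * (P * η) * bm G T (om (m := m) s K) := by positivity
  have d5 : 2 * s * ε * P ^ 2 = P * η := by rw [hη]; ring
  rw [d5]
  nlinarith

end

end Vale.Agent.P057T.Sb
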