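import Vale.Agent.P057T.Sb.Defs
import Vale.Agent.P057T.Cfg.Cut2
import Vale.Agent.P057T.Cfg.Mult
import Vale.Agent.P057T.Cfg.Jok
import Vale.Agent.P057T.Cfg.Cp
import Vale.Agent.P057T.Cfg.CountH98

/-! Row MARG0: the law of the base point of a box. -/

open MvPolynomial Finset
open scoped Real BigOperators

namespace Vale.Agent.P057T.Sb

open Vale.Agent.P057T.Eq Vale.Agent.P057T.Cfg

noncomputable section

set_option linter.unusedSectionVars false
set_option linter.unusedVariables false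

namespace Marg0

variable {ι V : Type} [Fintype ι] [DecidableEq ι] [Fintype V] [DecidableEq V]

theorem rs_mono2 {G : GT ι} {WW : ℕ → ℝ} {c c' Y Y' : ℝ} {s : ℕ} (h : Rs G WW c' Y' s)
    (hW : ∀ g, 0 ≤ WW g) (hc : 0 < c) (hc' : c ≤ c') (hY0 : 0 < Y) (hY : Y ≤ Y') :
    Rs G WW c Y s := by
  intro g hg
  have h2 : ∀ g, 0 < c * (Y + WW g) := fun g => mul_pos hc (by linarith [hW g])
  have h1 : ∀ g, c * (Y + WW g) ≤ c' * (Y' + WW g) := fun g =>
    mul_le_mul hc' (by linarith) (by linarith [hW g]) (by linarith)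
  refine ⟨(h g hg).1.mono (Real.exp_le_exp.2 (h1 g)), (h g hg).2.mono ?_⟩
  refine mul_le_mul (Real.exp_le_exp.2 (by linarith [h1 (g + 1)])) (inv_anti₀ (h2 g) (h1 g))
    (inv_nonneg.2 ((h2 g).le.trans (h1 g))) (Real.exp_pos _).le

/-- the pure powers of the vertex `v` -/
def PW (w : ι → ℕ) (v : V) : Finset (JI w V) := univ.filter fun x => x.1.2.support ⊆ {v}

theorem mem_PW {w : ι → ℕ} {v : V} {x : JI w V} : x ∈ PW w v ↔ x.1.2.support ⊆ {v} := by
  simp only [PW, mem_filter, mem_univ, true_and]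

theorem mem_PW' {w : ι → ℕ} {v : V} (x : JI w V) : x ∈ PW w v ↔ ∃ a, pu w v a = x := by
  rw [mem_PW]
  exact ⟨fun h => ⟨_, pu_of_supp w x h⟩, fun ⟨a, h⟩ => h ▸ supp_pu w v a⟩

theorem pu_injective (w : ι → ℕ) (v : V) : Function.Injective (pu w v) := fun _ _ h =>
  congrArg (fun x : JI w V => x.1.1) h

theorem PW_le {w : ι → ℕ} {v : V} {x y : JI w V} (hx : x ∈ PW w v) (h : y.1.2 ≤ x.1.2) :
    y ∈ PW w v := mem_PW.2 ((Finsupp.support_mono h).trans (mem_PW.1 hx))

theorem c1_sub {α : Type} [DecidableEq α] {W : Finset α} {x y : α} (h : x ∈ W → y ∈ W) :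
    Cp.c1 W y ⊆ Cp.c1 W x := by
  unfold Cp.c1
  by_cases hx : x ∈ W
  · rw [if_pos hx, if_pos (h hx)]
  · rw [if_neg hx]
    exact subset_univ _

theorem aeval_supp {R : Type} [CommRing R] [Algebra ℝ R] {S : Set V} (f : ι → MvPolynomial V R)
    (hf : ∀ a, f a ∈ supported R S) (q : MvPolynomial ι ℝ) : aeval f q ∈ supported R S := by
  induction q using MvPolynomial.induction_on with
  | C a =>
    rw [aeval_C, MvPolynomial.algebraMap_apply]
    exact Subalgebra.algebraMap_mem (supported R S) _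
  | add p q hp hq => rw [map_add]; exact add_mem hp hq
  | mul_X p v hp => rw [map_mul, aeval_X]; exact mul_mem hp (hf v)

theorem pl_supp {R : Type} [CommRing R] {w : ι → ℕ} {v : V} (z : JI w V → R)
    (hz : ∀ x, x ∉ PW w v → z x = 0) (a : ι) : pl z a ∈ supported R ({v} : Set V) := by
  unfold pl
  refine sum_mem fun x _ => ?_
  split_ifs with h
  · by_cases hx : x ∈ PW w v
    · rw [mem_supported]
      intro u hu
      obtain ⟨d, hd, hu2⟩ := (mem_vars_iff_mem_support u).1 hu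
      have h1 := mem_singleton.1 (support_monomial_subset hd)
      subst h1
      exact mem_singleton.1 (mem_PW.1 hx hu2)
    · rw [hz x hx, monomial_zero]
      exact zero_mem _
  · exact zero_mem _

theorem cov_jet (w : ι → ℕ) (v : V) (q : MvPolynomial ι ℝ) (ν : V →₀ ℕ) (μ : JI w V →₀ ℕ)
    (hμ : μ ∈ (coeff ν (aeval (pl (X : JI w V → MvPolynomial (JI w V) ℝ)) q)).support)
    (h : ∀ y ∈ μ.support, y ∈ PW w v) : ν.support ⊆ {v} := by
  have hf := pu_injective w v
  have h1 : μ = (μ.comapDomain (pu w v) hf.injOn).mapDomain (pu w v) :=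
    (Finsupp.mapDomain_comapDomain _ hf μ fun y hy => (mem_PW' y).1 (h y hy)).symm
  rw [mem_support_iff, h1, ← coeff_killCompl (hf := hf)] at hμ
  have h2 := map_aeval_pl (killCompl hf : MvPolynomial (JI w V) ℝ →ₐ[ℝ] MvPolynomial ι ℝ)
    (X : JI w V → MvPolynomial (JI w V) ℝ) q
  have h3 := congrArg (coeff ν) h2
  rw [coeff_map] at h3
  have h4 := aeval_supp (S := ({v} : Set V)) _ (pl_supp (v := v)
    (fun x : JI w V => (killCompl hf : MvPolynomial (JI w V) ℝ →ₐ[ℝ] MvPolynomial ι ℝ) (X x))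
    fun x hx => by
      rw [killCompl, aeval_X,
        dif_neg fun h5 : x ∈ Set.range (pu w v) => hx ((mem_PW' x).2 h5)]) q
  rw [mem_supported] at h4
  intro u hu
  refine mem_singleton.2 (h4 ((mem_vars_iff_mem_support u).2 ⟨ν, mem_support_iff.2 ?_, hu⟩))
  rw [← h3]
  intro h5
  apply hμ
  have h6 : (killCompl hf : MvPolynomial (JI w V) ℝ →ₐ[ℝ] MvPolynomial ι ℝ)
      (coeff ν (aeval (pl (X : JI w V → MvPolynomial (JI w V) ℝ)) q)) = 0 := h5
  rw [h6, coeff_zero]

theorem col_jet (G : GT ι) (ω : (V →₀ ℕ) → ℝ) (v : V) :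
    Cp.Col (jet G V ω) (Cp.c1 (PW G.w v)) where
  blk := fun x y h => by
    have e := (Jok.ne_of h).1
    exact Subset.antisymm (c1_sub fun hy => PW_le hy e.le) (c1_sub fun hx => PW_le hx e.ge)
  sub := fun x y hy => c1_sub fun hx =>
    PW_le hx (Jok.vars_jet G.w (fun _ => True) (fun _ _ => trivial) x.1.2 y hy).2
  cov := fun x μ hμ => by
    by_cases hx : x ∈ PW G.w v
    · unfold Cp.c1
      rw [if_pos hx]
      exact empty_subset _
    · by_contra hne
      refine hx (mem_PW.2 (cov_jet G.w v (G.q x.1.1) x.1.2 μ hμ fun y hy => ?_))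
      by_contra hy2
      refine hne fun u _ => mem_biUnion.2 ⟨y, hy, ?_⟩
      unfold Cp.c1
      rw [if_neg hy2]
      exact mem_univ _

theorem colT_jet (G : GT ι) (T : AT ι) (e : V → ℤ) (ω : (V →₀ ℕ) → ℝ) (U : Finset (JI G.w V))
    (v : V) : Cp.ColT (jat G T e ω U) (Cp.c1 (PW G.w v)) := fun x _ y hy => c1_sub fun hx =>
  PW_le hx (Jok.vars_hg G T e (fun _ => True) x.1.1 (fun _ _ => trivial) x.1.2 y
    (Jok.vars_Cmul _ _ hy)).2

theorem ev_zero {m : ℕ} {w : ι → ℕ} (β : JI w (Option (Fin m)) → ℤ) :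
    ev (pt 0) β = fun a => β (pu w none a) := by
  funext a
  unfold ev pl
  rw [map_sum, sum_eq_single (pu w none a)]
  · rw [if_pos (show (pu w (none : Option (Fin m)) a).1.1 = a from rfl), eval_monomial]
    have : (pu w (none : Option (Fin m)) a).1.2 = Finsupp.single none (w a) := rfl
    rw [this, Finsupp.prod_single_index (by simp)]
    simp [pt]
  · intro x _ hx
    split_ifs with h
    · have h1 : ¬ x.1.2.support ⊆ {none} := fun h2 => hx (by rw [← h]; exact (pu_of_supp w x h2).symm)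
      obtain ⟨u, hu, hu2⟩ := not_subset.1 h1
      rw [eval_monomial, Finsupp.prod, prod_eq_zero hu, mul_zero]
      cases u with
      | none => exact absurd (mem_singleton_self _) hu2
      | some l => exact zero_pow (Finsupp.mem_support_iff.1 hu)
    · exact map_zero _
  · intro h
    exact absurd (mem_univ _) h

theorem om_pu {m : ℕ} (s : ℕ) (K : ℝ) (w : ι → ℕ) (a : ι) :
    om s K (pu w (none : Option (Fin m)) a).1.2 = 1 := by
  have : (pu w (none : Option (Fin m)) a).1.2 = Finsupp.single none (w a) := rfl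
  rw [this]
  simp [om]

end Marg0

open Marg0 in
theorem marg0 (hJ : JOK) (hC : CFG) (hF : Cp.FIBR) (hD : DET) : MARG0 := by
  intro s
  obtain ⟨c, hc⟩ := hF s
  refine ⟨c + (s + 3 + (s ^ 3 + 1) + 1), ?_⟩
  intro m ι _ _ G T WW P K Z F hs hW hR hFb
  have hP := hs.P2
  have hZ := hs.Z1
  have hG := hs.ok
  have hω : ∀ ν, 0 < om (m := m) s K ν ∧ om (m := m) s K ν ≤ Real.exp Z := fun ν =>
    ⟨pow_pos (by linarith [hs.K1]) _, (pow_le_pow_right₀ hs.K1 (min_le_left _ _)).trans hs.KZ⟩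
  obtain ⟨j1, j2, j3, j4⟩ := hJ s ι (Option (Fin m)) G (om s K) hG fun ν => (hω ν).1
  have hV : Fintype.card (Option (Fin m)) = m + 1 := by simp
  have hcard : (Fintype.card (JI G.w (Option (Fin m))) : ℝ) ≤ P := by
    refine le_trans ?_ hs.cd
    have h1 := H98.card_JI (V := Option (Fin m)) (M := 4 * m + 4) hG.ws (by omega)
    have h2 : ((4 * m + 4 + 1 : ℕ) : ℝ) = 4 * m + 5 := by push_cast; ring
    rw [← h2]
    exact_mod_cast h1
  have hT := j4 T P (e0 m) (fun _ => True) hs.ao hs.un fun _ _ _ _ => trivial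
  rw [UD_true] at hT
  have hm0 : (0 : ℝ) ≤ m := Nat.cast_nonneg m
  have hs0 : (0 : ℝ) ≤ s := Nat.cast_nonneg s
  have hY : Z + (s + 2) * Z + s ^ 3 * Fintype.card (Option (Fin m)) ≤
      P ^ (c + (s + 3 + (s ^ 3 + 1) + 1)) * Z := by
    have a1 : ((s + 3 : ℕ) : ℝ) ≤ P ^ (s + 3) := nat_le_pw hP _
    have a2 : ((s ^ 3 : ℕ) : ℝ) ≤ P ^ (s ^ 3) := nat_le_pw hP _
    have a3 : (Fintype.card (Option (Fin m)) : ℝ) ≤ P * Z := by
      rw [hV]
      push_cast
      nlinarith [hs.mP]
    have a4 := add_pw_le hP (s + 3) (s ^ 3 + 1)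
    have a5 : P ^ (s + 3 + (s ^ 3 + 1) + 1) ≤ P ^ (c + (s + 3 + (s ^ 3 + 1) + 1)) :=
      pw_le hP (by omega)
    push_cast at a1 a2
    have a6 : (s : ℝ) ^ 3 * Fintype.card (Option (Fin m)) ≤ P ^ (s ^ 3 + 1) * Z := by
      rw [pow_succ P, mul_assoc]
      exact mul_le_mul a2 a3 (Nat.cast_nonneg _) (pw_pos hP _).le
    have a7 := mul_le_mul_of_nonneg_right a1 (by linarith : 0 ≤ Z)
    have a8 := mul_le_mul_of_nonneg_right (a4.trans a5) (by linarith : 0 ≤ Z)
    nlinarith
  have hY0 : 0 < Z + (s + 2) * Z + s ^ 3 * Fintype.card (Option (Fin m)) := by positivity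
  have hY1 := hC s ι (Option (Fin m)) G (om s K) WW (P ^ c) Z Z hG hW (one_le_pw hP c) hZ
    (by linarith) hω (rs_mono2 hR hW.nn (pw_pos hP c) (pw_le hP (by omega)) hY0 hY)
  have hr : Cp.Rr (jet G (Option (Fin m)) (om s K)) s (fun g => WW g + Z) (P ^ c) Z :=
    ⟨j1, j3 WW Z hW (by linarith) fun ν => (hω ν).2, fun g hg => (hY1 g hg).1,
      fun g hg => (hY1 g hg).2⟩
  have key := (hc _ _ _ _ P Z (PW G.w none) ⟨hcard, hP, hZ⟩ hT hr (col_jet G _ none)
    (colT_jet G T _ _ _ none)).2 ℝ (fun z => F fun a => z (pu G.w none a)) fun z => hFb _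
  have e1 : Cp.Ex (jet G (Option (Fin m)) (om s K)) (jat G T (e0 m) (om s K) univ)
      (fun z => F fun a => Cp.res (PW G.w none) z (pu G.w none a)) =
      ∑' β : Bx G m, bw G T (om s K) 1 0 β * F (ev (pt 0) β) := by
    unfold Cp.Ex
    rw [← (latE (φ := id) Function.injective_id (U := (univ : Finset (JI G.w (Option (Fin m)))))
      (fun x => by simp)).tsum_eq]
    refine tsum_congr fun z => ?_
    have b1 : latE (φ := id) Function.injective_id (U := (univ : Finset (JI G.w (Option (Fin m)))))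
      (fun x => by simp) z = z.1 := rfl
    rw [b1, ev_zero, smul_eq_mul]
    have b2 : (fun a => Cp.res (PW G.w none) z.1 (pu G.w none a)) =
        fun a => z.1 (pu G.w none a) := funext fun a => if_pos ((mem_PW' _).2 ⟨a, rfl⟩)
    have b3 : (jet G (Option (Fin m)) (om s K)).nu (jat G T (e0 m) (om s K) univ) z.1 =
        bw G T (om s K) 1 0 z.1 := by
      unfold bw ww GT.nu uv
      simp only [one_mul, Pi.zero_apply, sub_zero]
    rw [← b3, ← b2]
  have hU : ∀ x, x ∈ (univ : Finset (JI G.w (Option (Fin m)))) ∩ PW G.w none ↔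
      ∃ a, pu G.w none a = x := fun x => by rw [univ_inter]; exact mem_PW' x
  have e2 : Cp.Ex (jet G (Option (Fin m)) (om s K))
      ((jat G T (e0 m) (om s K) univ).rs (univ ∩ PW G.w none))
      (fun z => F fun a => z (pu G.w none a)) = ∑' z : ι → ℤ, G.nu T z * F z := by
    unfold Cp.Ex
    rw [← (latE (pu_injective G.w none) hU).tsum_eq]
    refine tsum_congr fun z => ?_
    have b1 : latE (pu_injective G.w none) hU z = fun a => z.1 (pu G.w none a) := rfl
    rw [b1, smul_eq_mul]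
    have b2 : ∑ x ∈ univ ∩ PW G.w none, (T.sg x.1.1 * uv (jet G (Option (Fin m)) (om s K))
        (jat G T (e0 m) (om s K) (univ ∩ PW G.w none)) z.1 x) ^ 2 =
        ∑ a ∈ T.U, (T.sg a * uv G T (fun a => z.1 (pu G.w none a)) a) ^ 2 := by
      rw [sum_img (pu_injective G.w none) hU, hs.un]
      refine sum_congr rfl fun a _ => ?_
      rw [uv_jet G T _ _ _ j2, om_pu, one_mul,
        pure_tp hG (fun b => hs.ao.pd b (hs.un ▸ mem_univ b)) (e := e0 m) (v := none) rfl]
      rfl
    exact congrArg (fun t => Real.exp (-π * t) * F fun a => z.1 (pu G.w none a)) b2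
  have e3 : (jet G (Option (Fin m)) (om s K)).mn (fun x => T.sg x.1.1) (PW G.w none) =
      G.mn T.sg univ := by
    have b1 : PW G.w (none : Option (Fin m)) = univ.image (pu G.w none) := by
      ext x
      rw [mem_PW']
      simp
    rw [b1]
    refine MultP.mn_image G _ T.sg _ (pu G.w none) (pu_injective _ _) (fun a b => ?_)
      (fun _ => rfl) univ
    show (if (pu G.w none a).1.2 = (pu G.w none b).1.2 then
      (om s K (pu G.w none a).1.2)⁻¹ * G.B a b else 0) = G.B a b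
    by_cases h : G.B a b = 0
    · rw [h, mul_zero, ite_self]
    · rw [om_pu, inv_one, one_mul, if_pos]
      show Finsupp.single none (G.w a) = Finsupp.single none (G.w b)
      rw [(hG.blk a b (Or.inr h)).2]
  have e4 : bm G T (om (m := m) s K) = G.mn T.sg univ *
      (jet G (Option (Fin m)) (om s K)).mn (fun x => T.sg x.1.1) (univ \ PW G.w none) := by
    have b1 := (hD s _ _ j1).2.2.1 univ (PW G.w none)
      (MultP.bk_mo G _ fun _ _ _ _ => mem_univ _)
      (MultP.bk_mo G _ fun x y h hx => PW_le hx h.ge) (subset_univ _)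
    rw [← e3]
    unfold bm GT.mn
    rw [b1, ← prod_sdiff (subset_univ (PW G.w none))]
    ring
  have e5 : 0 ≤ G.mn T.sg univ := mul_nonneg (G.dv_nonneg _) (prod_nonneg fun a _ =>
    inv_nonneg.2 ((inv_pos.2 (by linarith)).le.trans (hs.ao.s1 a)))
  have key2 : |∑' β : Bx G m, bw G T (om s K) 1 0 β * F (ev (pt 0) β) -
      (jet G (Option (Fin m)) (om s K)).mn (fun x => T.sg x.1.1) (univ \ PW G.w none) *
        ∑' z : ι → ℤ, G.nu T z * F z| ≤ Real.exp (-Z) * bm G T (om (m := m) s K) := by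
    rw [← e1, ← e2]
    exact key
  have e6 := mul_le_mul_of_nonneg_left key2 e5
  rw [← abs_of_nonneg e5, ← abs_mul, abs_of_nonneg e5, mul_sub, ← mul_assoc, ← e4] at e6
  linarith

end

end Vale.Agent.P057T.Sb
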