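import Vale.Agent.P057T.Sb.Defs
import Vale.Agent.P057T.Cfg.Bas
import Vale.Agent.P057T.Cfg.CountH98
import Vale.Agent.P057T.Eq.Det

/-! Row MASB. -/

open MvPolynomial Finset
open scoped Real BigOperators

namespace Vale.Agent.P057T.Sb

open Vale.Agent.P057T.Eq Vale.Agent.P057T.Cfg

noncomputable section

set_option linter.unusedSectionVars false

namespace Masb

variable {ι : Type} [Fintype ι] [DecidableEq ι]

/-- all points -/
def eu {U : Finset ι} (h : U = univ) : (ι → ℤ) ≃ Lat U where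
  toFun z := ⟨z, fun a ha => absurd (h ▸ mem_univ a) ha⟩
  invFun z := z.1
  left_inv _ := rfl
  right_inv _ := rfl

theorem cnt_univ {G : GT ι} {T : AT ι} {δ σ : ℝ} {n : ℕ} (hU : T.U = univ) (h : Cnt G T δ n σ)
    (r : ι → ℤ) (c : ι → ℝ) :
    Summable (fun z : ι → ℤ => ww G T σ c (r + (n : ℤ) • z)) ∧
    |∑' z : ι → ℤ, ww G T σ c (r + (n : ℤ) • z) - G.mn T.sg univ * ((σ * n) ^ Fintype.card ι)⁻¹| ≤
      δ * (G.mn T.sg univ * ((σ * n) ^ Fintype.card ι)⁻¹) := by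
  obtain ⟨h1, h2⟩ := h r c
  refine ⟨(eu hU).summable_iff.2 h1, ?_⟩
  rw [← (eu hU).tsum_eq] at h2
  have e1 : G.mn T.sg T.U = G.mn T.sg univ := by rw [hU]
  have e2 : T.U.card = Fintype.card ι := by rw [hU, card_univ]
  rw [e1, e2] at h2
  exact h2

theorem ww_one (G : GT ι) (T : AT ι) (z : ι → ℤ) : ww G T 1 0 z = G.nu T z := by
  simp [ww, GT.nu, uv]

theorem om_bd {m s : ℕ} {K Z : ℝ} (h1 : 1 ≤ K) (h2 : K ^ s ≤ Real.exp Z)
    (ν : Option (Fin m) →₀ ℕ) : 0 < om s K ν ∧ om s K ν ≤ Real.exp Z :=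
  ⟨pow_pos (by linarith) _, (pow_le_pow_right₀ h1 (min_le_left _ _)).trans h2⟩

end Masb

open Masb in
theorem masb' : MASB := by
  intro s m ι _ _ G T P K Z δ h hC
  have hP : 0 < P := by linarith [h.P2]
  have hZ : (1 : ℝ) ≤ Real.exp Z := Real.one_le_exp (by linarith [h.Z1])
  refine ⟨⟨?_, ?_⟩, ?_, fun n σ r h1 h2 h3 h4 => ?_⟩
  · refine mul_pos (DetP.dv_pos h.ok fun a b _ => by simp) (prod_pos fun a _ => inv_pos.2 ?_)
    exact (inv_pos.2 hP).trans_le (h.ao.s1 a)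
  · have := cnt_univ h.un (hC.1 1 1 le_rfl (by simpa using hZ) one_pos hZ) 0 0
    simpa [ww_one] using this
  · have h1 := H98.card_JI (V := Option (Fin m)) (M := 4 * m + 4) h.ok.ws (by simp; omega)
    refine le_trans ?_ h.cd
    have h2 : ((Fintype.card ι * (4 * m + 4 + 1) ^ s : ℕ) : ℝ) =
        (Fintype.card ι : ℝ) * (4 * m + 5) ^ s := by push_cast; ring
    rw [← h2]
    exact_mod_cast h1
  · have := hC.2 (Option (Fin m)) (e0 m) (om s K) (fun _ => True) n σ (by simp; omega)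
      (fun _ _ _ _ => trivial) (om_bd h.K1 h.KZ) h1 h2 h3 h4
    rw [UD_true] at this
    exact cnt_univ rfl this r 0

theorem masb (_ : JOK) (_ : DET) : MASB := masb'

end

end Vale.Agent.P057T.Sb
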