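import Vale.Agent.P057T.Sb.Masb

/-! Row NAP. -/

open MvPolynomial Finset
open scoped Real BigOperators

namespace Vale.Agent.P057T.Sb

open Vale.Agent.P057T.Eq Vale.Agent.P057T.Cfg Vale.Agent.P057L

noncomputable section

set_option linter.unusedSectionVars false

namespace Nap

open Classical in
theorem cls_card {J : Type} [Fintype J] [DecidableEq J] (n : ℕ) [NeZero n]
    (ψ : (J → ℤ) →+ ℤ) (hψ : ψ ≠ 0) :
    n * (univ.filter fun ρ : J → ZMod n =>
      ∃ β, ψ β = 0 ∧ (fun x => (β x : ZMod n)) = ρ).card ≤ n ^ Fintype.card J := by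
  obtain ⟨g, hg⟩ := Int.subgroup_cyclic ψ.range
  have h1 : ∀ w, ∃ k : ℤ, k • g = ψ w := fun w =>
    AddSubgroup.mem_closure_singleton.1 (hg ▸ (⟨w, rfl⟩ : ψ w ∈ ψ.range))
  obtain ⟨u, hu⟩ : g ∈ ψ.range := hg ▸ AddSubgroup.subset_closure rfl
  have hg0 : g ≠ 0 := by
    rintro rfl
    refine hψ (AddMonoidHom.ext fun w => ?_)
    obtain ⟨k, hk⟩ := h1 w
    simpa using hk.symm
  have h2 := card_le_card_of_injOn (s := (univ : Finset (ZMod n)) ×ˢ univ.filter
      fun ρ : J → ZMod n => ∃ β, ψ β = 0 ∧ (fun x => (β x : ZMod n)) = ρ)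
    (t := (univ : Finset (J → ZMod n))) (fun p => p.2 + fun x => p.1 * (u x : ZMod n))
    (fun _ _ => mem_coe.2 (mem_univ _)) (by
      rintro ⟨i, ρ⟩ hp ⟨i', ρ'⟩ hp' h
      obtain ⟨β, hb, rfl⟩ := (mem_filter.1 (mem_product.1 (mem_coe.1 hp)).2).2
      obtain ⟨β', hb', rfl⟩ := (mem_filter.1 (mem_product.1 (mem_coe.1 hp')).2).2
      obtain ⟨a, rfl⟩ := ZMod.intCast_surjective i
      obtain ⟨a', rfl⟩ := ZMod.intCast_surjective i'
      have h3 : ∀ x, (n : ℤ) ∣ β x + a * u x - (β' x + a' * u x) := fun x => by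
        rw [← ZMod.intCast_zmod_eq_zero_iff_dvd]
        have := congrFun h x
        simp only [Pi.add_apply] at this
        push_cast
        rw [this, sub_self]
      choose w hw using h3
      have h4 : β + a • u - (β' + a' • u) = (n : ℤ) • w := funext fun x => by simpa using hw x
      have h5 := congrArg ψ h4
      obtain ⟨k, hk⟩ := h1 w
      simp only [map_sub, map_add, map_zsmul, hb, hb', hu, ← hk, smul_eq_mul, zero_add] at h5
      have h6 : a - a' = n * k := mul_right_cancel₀ hg0 (by linear_combination h5)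
      have h7 : (a : ZMod n) = a' := by
        rw [← sub_eq_zero, ← Int.cast_sub, h6]
        simp
      rw [h7] at h ⊢
      exact Prod.ext rfl (add_right_cancel h))
  simpa [card_product, ZMod.card] using h2

open Classical in
theorem cls_le {J : Type} [Fintype J] [DecidableEq J] (n : ℕ) (hn : 1 ≤ n) (f : (J → ℤ) → ℝ)
    (h0 : ∀ β, 0 ≤ f β) (hs : Summable f) (M : ℝ) (hM0 : 0 ≤ M)
    (hM : ∀ r, ∑' z, f (r + (n : ℤ) • z) ≤ M) (ψ : (J → ℤ) →+ ℤ) (hψ : ψ ≠ 0) :
    ∑' β, f β * (if ψ β = 0 then 1 else 0) ≤ (n : ℝ) ^ Fintype.card J / n * M := by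
  have : NeZero n := ⟨by omega⟩
  set Cs := univ.filter fun ρ : J → ZMod n => ∃ β, ψ β = 0 ∧ (fun x => (β x : ZMod n)) = ρ
  let F : (J → ZMod n) → (J → ℤ) → ℝ := fun ρ β =>
    f β * if (fun x => (β x : ZMod n)) = ρ then 1 else 0
  have hF : ∀ ρ, Summable (F ρ) := fun ρ =>
    hs.of_nonneg_of_le (fun β => mul_nonneg (h0 β) (by split_ifs <;> norm_num))
      fun β => mul_le_of_le_one_right (h0 β) (by split_ifs <;> norm_num)
  have h1 : ∀ β, f β * (if ψ β = 0 then 1 else 0) ≤ ∑ ρ ∈ Cs, F ρ β := fun β => by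
    have hn : ∀ ρ ∈ Cs, 0 ≤ F ρ β := fun ρ _ => mul_nonneg (h0 β) (by split_ifs <;> norm_num)
    split_ifs with h
    · refine le_trans (le_of_eq ?_) (single_le_sum hn (mem_filter.2 ⟨mem_univ _, β, h, rfl⟩))
      simp [F]
    · simpa using sum_nonneg hn
  have h2 : ∀ ρ ∈ Cs, ∑' β, F ρ β ≤ M := by
    intro ρ hρ
    obtain ⟨r, -, rfl⟩ := (mem_filter.1 hρ).2
    refine le_trans (le_of_eq ?_) (hM r)
    have hi : Function.Injective fun z : J → ℤ => r + (n : ℤ) • z := fun z z' h =>
      smul_right_injective _ (by exact_mod_cast (by omega : n ≠ 0)) (add_left_cancel h)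
    rw [← hi.tsum_eq]
    · refine tsum_congr fun z => ?_
      simp only [F]
      rw [if_pos, mul_one]
      funext x
      simp
    · intro β hβ
      have h3 : (fun x => (β x : ZMod n)) = fun x => (r x : ZMod n) := by
        by_contra h
        exact hβ (by simp only [F]; rw [if_neg h, mul_zero])
      have h4 : ∀ x, (n : ℤ) ∣ β x - r x := fun x => by
        rw [← ZMod.intCast_zmod_eq_zero_iff_dvd]
        push_cast
        rw [congrFun h3 x, sub_self]
      choose w hw using h4
      exact ⟨w, funext fun x => by simp [← hw x]⟩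
  have hn0 : (0 : ℝ) < n := by exact_mod_cast hn
  have h5 : (Cs.card : ℝ) ≤ (n : ℝ) ^ Fintype.card J / n := by
    rw [le_div_iff₀ hn0, mul_comm]
    exact_mod_cast cls_card n ψ hψ
  calc _ ≤ ∑' β, ∑ ρ ∈ Cs, F ρ β := by
        refine Summable.tsum_le_tsum h1 ?_ (summable_sum fun ρ _ => hF ρ)
        exact hs.of_nonneg_of_le (fun β => mul_nonneg (h0 β) (by split_ifs <;> norm_num))
          fun β => mul_le_of_le_one_right (h0 β) (by split_ifs <;> norm_num)
    _ = ∑ ρ ∈ Cs, ∑' β, F ρ β := Summable.tsum_finsetSum fun ρ _ => hF ρ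
    _ ≤ Cs.card • M := sum_le_card_nsmul _ _ _ h2
    _ ≤ _ := by rw [nsmul_eq_mul]; exact mul_le_mul_of_nonneg_right h5 hM0

theorem hom_one {V : Type} [Fintype V] [DecidableEq V] {Q : MvPolynomial V ℤ}
    (hQ : Q.IsHomogeneous 1) (t : V → ℤ) :
    eval t Q = ∑ v, coeff (Finsupp.single v 1) Q * t v := by
  have : Q = ∑ v, C (coeff (Finsupp.single v 1) Q) * X v := by
    ext ν
    rw [coeff_sum]
    simp only [coeff_C_mul, coeff_X]
    by_cases h : ν.degree = 1
    · obtain ⟨v, rfl⟩ : ∃ v, Finsupp.single v 1 = ν := by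
        have : ν ∈ {d : V →₀ ℕ | d.degree = 1} := h
        rwa [← Finsupp.range_single_one] at this
      rw [sum_eq_single v]
      · simp
      · intro b _ hb
        rw [if_neg, mul_zero]
        exact fun h => hb (Finsupp.single_left_injective one_ne_zero h)
      · simp
    · rw [hQ.coeff_eq_zero h]
      refine (sum_eq_zero fun v _ => ?_).symm
      rw [if_neg, mul_zero]
      rintro rfl
      simp at h
  conv_lhs => rw [this]
  simp

variable {ι : Type} [Fintype ι] [DecidableEq ι] {G : GT ι} {m : ℕ}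

/-- the slope -/
def sl (l : ι → ℤ) (β : Bx G m) (v : Option (Fin m)) : ℤ :=
  ∑ a, l a * coeff (Finsupp.single v 1) (pl β a)

theorem pj_aff {l : ι → ℤ} (hl : ∀ a, l a ≠ 0 → G.w a = 1) (x0 : ℤ) (β : Bx G m) (t : Fin m → ℤ) :
    pj x0 l (ev (pt t) β) = x0 + sl l β none + ∑ i, sl l β (some i) * t i := by
  have h1 : ∀ a, l a * ev (pt t) β a =
      ∑ v, l a * coeff (Finsupp.single v 1) (pl β a) * pt t v := fun a => by
    by_cases h : l a = 0
    · simp [h]
    · have := pl_hom β a
      rw [hl a h] at this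
      unfold Cfg.ev
      rw [hom_one this, mul_sum]
      exact sum_congr rfl fun v _ => by ring
  unfold pj
  simp only [h1]
  rw [sum_comm, Fintype.sum_option, add_assoc]
  simp only [sl, sum_mul, pt, Option.elim, mul_one]

/-- the difference at two parameters -/
def df (G : GT ι) (l : ι → ℤ) (t t' : Fin m → ℤ) : Bx G m →+ ℤ where
  toFun β := pj 0 l (ev (pt t) β) - pj 0 l (ev (pt t') β)
  map_zero' := by simp [pj, Cfg.ev, pl]
  map_add' β β' := by
    simp only [pj, ev_add, Pi.add_apply, mul_add, sum_add_distrib]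
    ring

theorem df_ne {l : ι → ℤ} (h0 : l ≠ 0) (hl : ∀ a, l a ≠ 0 → G.w a = 1) {t t' : Fin m → ℤ}
    (ht : t ≠ t') : df G l t t' ≠ 0 := by
  obtain ⟨a, ha⟩ := Function.ne_iff.1 h0
  obtain ⟨i, hi⟩ := Function.ne_iff.1 ht
  let x : JI G.w (Option (Fin m)) := Cfg.mk a (Finsupp.single (some i) 1) (by simp [hl a ha])
  have hs : ∀ v, sl l (Pi.single x 1 : Bx G m) v = if v = some i then l a else 0 := by
    intro v
    unfold sl
    have : ∀ b, l b * coeff (Finsupp.single v 1) (pl (Pi.single x 1 : Bx G m) b) =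
        if b = a then (if v = some i then l a else 0) else 0 := by
      intro b
      by_cases hb : l b = 0
      · rw [hb, zero_mul, if_neg]
        rintro rfl
        exact ha hb
      · have := coeff_pl (Pi.single x 1 : Bx G m) (Cfg.mk b (Finsupp.single v 1) (by simp [hl b hb]))
        simp only [Cfg.mk] at this
        rw [this, Pi.single_apply]
        simp only [x, Cfg.mk, Subtype.mk.injEq, Prod.mk.injEq,
          (Finsupp.single_left_injective one_ne_zero).eq_iff]
        by_cases h1 : b = a <;> by_cases h2 : v = some i <;> simp [h1, h2]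
    simp [this]
  intro h
  have h1 := DFunLike.congr_fun h (Pi.single x 1)
  simp only [df, AddMonoidHom.coe_mk, ZeroHom.coe_mk, pj_aff hl, hs] at h1
  simp at h1
  exact hi (mul_left_cancel₀ ha (by linarith))

end Nap

open Nap in
theorem nap (hM : MASB) : NAP := by
  classical
  intro s m ι _ _ G T P K Z δ N n l h hC hδ hn hnZ h0 hl
  obtain ⟨-, -, h3⟩ := hM s m ι G T P K Z δ h hC
  have hP : 0 < P := by linarith [h.P2]
  have hZ : (1 : ℝ) ≤ Real.exp Z := Real.one_le_exp (by linarith [h.Z1])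
  refine ⟨?_, fun k A x0 β hA hi a d hd hap => ?_⟩
  · have hb : 0 ≤ bm G T (om (m := m) s K) := mul_nonneg (abs_nonneg _)
      (prod_nonneg fun x _ => inv_nonneg.2 ((inv_pos.2 hP).le.trans (h.ao.s1 _)))
    have hw : ∀ β : Bx G m, 0 ≤ bw G T (om s K) 1 0 β := fun β => (Real.exp_pos _).le
    have hs : Summable fun β : Bx G m => bw G T (om s K) 1 0 β := by
      simpa using (h3 1 1 0 le_rfl (by simpa using hZ) one_pos hZ).1
    have hn0 : (0 : ℝ) < n := by exact_mod_cast hn
    have h4 : ∀ p ∈ (bz m N ×ˢ bz m N).filter fun p => p.1 ≠ p.2,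
        ∑' β : Bx G m, bw G T (om s K) 1 0 β * (if df G l p.1 p.2 β = 0 then 1 else 0) ≤
          2 / n * bm G T (om (m := m) s K) := by
      intro p hp
      refine (cls_le n hn _ hw hs (2 * (bm G T (om (m := m) s K) *
        ((n : ℝ) ^ Fintype.card (JI G.w (Option (Fin m))))⁻¹)) (by positivity) (fun r => ?_) _
        (df_ne h0 hl (mem_filter.1 hp).2)).trans (le_of_eq ?_)
      · have h5 := (abs_le.1 (h3 n 1 r hn hnZ one_pos hZ).2).2
        rw [one_mul] at h5
        have h6 : 0 ≤ bm G T (om (m := m) s K) *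
          ((n : ℝ) ^ Fintype.card (JI G.w (Option (Fin m))))⁻¹ := by positivity
        nlinarith
      · field_simp
    have hsm : ∀ c : Bx G m → Prop, Summable fun β : Bx G m =>
        bw G T (om s K) 1 0 β * (if c β then 1 else 0) := fun c =>
      hs.of_nonneg_of_le (fun β => mul_nonneg (hw β) (by split_ifs <;> norm_num))
        fun β => mul_le_of_le_one_right (hw β) (by split_ifs <;> norm_num)
    calc _ ≤ ∑' β : Bx G m, ∑ p ∈ (bz m N ×ˢ bz m N).filter fun p => p.1 ≠ p.2,
          bw G T (om s K) 1 0 β * (if df G l p.1 p.2 β = 0 then 1 else 0) := by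
          refine Summable.tsum_le_tsum (fun β => ?_) (by convert hsm _)
            (summable_sum fun p _ => by convert hsm _)
          have hn' : ∀ p ∈ (bz m N ×ˢ bz m N).filter fun p => p.1 ≠ p.2,
              0 ≤ bw G T (om s K) 1 0 β * (if df G l p.1 p.2 β = 0 then 1 else 0) :=
            fun p _ => mul_nonneg (hw β) (by split_ifs <;> norm_num)
          split_ifs with hc
          · obtain ⟨t, ht, t', ht', h5, h6⟩ := hc
            refine le_trans (le_of_eq ?_) (single_le_sum hn'
              (mem_filter.2 ⟨mem_product.2 ⟨ht, ht'⟩, h5⟩ : (t, t') ∈ _))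
            rw [if_pos (show df G l t t' β = 0 from sub_eq_zero.2 h6)]
          · simpa using sum_nonneg hn'
      _ = ∑ p ∈ (bz m N ×ˢ bz m N).filter fun p => p.1 ≠ p.2, ∑' β : Bx G m,
          bw G T (om s K) 1 0 β * (if df G l p.1 p.2 β = 0 then 1 else 0) :=
          Summable.tsum_finsetSum fun p _ => by convert hsm _
      _ ≤ _ • _ := sum_le_card_nsmul _ _ _ h4
      _ ≤ _ := by
          rw [nsmul_eq_mul]
          have h7 : ((((bz m N ×ˢ bz m N).filter fun p => p.1 ≠ p.2).card : ℕ) : ℝ) ≤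
              (N : ℝ) ^ (2 * m) := by
            have := card_filter_le (bz m N ×ˢ bz m N) fun p => p.1 ≠ p.2
            rw [card_product] at this
            have e : (bz m N).card = N ^ m := by simp [bz, rg]
            rw [e, ← pow_add, ← two_mul] at this
            exact_mod_cast this
          calc _ ≤ (N : ℝ) ^ (2 * m) * (2 / n * bm G T (om (m := m) s K)) :=
                mul_le_mul_of_nonneg_right h7 (by positivity)
            _ = _ := by ring
  · set e := ∑ i, sl l β (some i) * d i with he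
    have h1 : ∀ (y : ℤ) (i : ℤ), pj y l (ev (pt (a + i • d)) β) = pj y l (ev (pt a) β) + i * e := by
      intro y i
      rw [pj_aff hl, pj_aff hl, he, mul_sum, add_assoc _ (∑ i, _), ← sum_add_distrib]
      congr 1
      exact sum_congr rfl fun c _ => by simp; ring
    have h2 : ∀ i : ℕ, i < k + 2 → pj x0 l (ev (pt a) β) + i * e ∈ A := fun i hi => by
      rw [← h1]
      exact (mem_filter.1 (hap i hi)).2
    have he0 : e ≠ 0 := by
      intro h5
      have a0 := (mem_filter.1 (hap 0 (by omega))).1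
      have a1 := (mem_filter.1 (hap 1 (by omega))).1
      have := hi _ a0 _ a1 (by rw [h1, h1, h5]; simp)
      simp at this
      exact hd this
    rcases lt_or_gt_of_ne he0 with h5 | h5
    · refine hA (pj x0 l (ev (pt a) β) + (k + 1 : ℕ) * e) (-e) (by omega) fun i hi => ?_
      have := h2 (k + 1 - i) (by omega)
      rw [Nat.cast_sub (by omega)] at this
      convert this using 1
      ring
    · exact hA _ e h5 h2

end

end Vale.Agent.P057T.Sb
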