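import Vale.Agent.P057T.Sb.Defs

/-! Row `SUBL`: lifting from sub-boxes. -/

open MvPolynomial Finset
open scoped Real BigOperators

namespace Vale.Agent.P057T.Sb

open Vale.Agent.P057T.Eq Vale.Agent.P057T.Cfg Vale.Agent.P057L

variable {ι : Type} [Fintype ι] [DecidableEq ι]

theorem mn_nonneg (G : GT ι) {σ : ι → ℝ} (h : ∀ a, 0 ≤ σ a) (V : Finset ι) : 0 ≤ G.mn σ V :=
  mul_nonneg (abs_nonneg _) (prod_nonneg fun a _ => inv_nonneg.2 (h a))

theorem cnt_mono {G : GT ι} {T : AT ι} (h : ∀ a, 0 ≤ T.sg a) {δ δ' σ : ℝ} {n : ℕ} (hσ : 0 < σ)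
    (hδ : δ ≤ δ') (H : Cnt G T δ n σ) : Cnt G T δ' n σ := fun r c =>
  ⟨(H r c).1, (H r c).2.trans (mul_le_mul_of_nonneg_right hδ
    (mul_nonneg (mn_nonneg G h _) (by positivity)))⟩

theorem cnts_mono {G : GT ι} {T : AT ι} (h : ∀ a, 0 ≤ T.sg a) {M : ℕ} {δ δ' Z Z' : ℝ}
    (hδ : δ ≤ δ') (hZ : Z' ≤ Z) (H : Cnts G T M δ Z) : Cnts G T M δ' Z' := by
  have e := Real.exp_le_exp.2 hZ
  refine ⟨fun n σ a b c d => cnt_mono h c hδ (H.1 n σ a (b.trans e) c (d.trans e)), ?_⟩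
  intro V _ _ e0 ω Δ _ n σ h1 h2 h3 a b c d
  exact cnt_mono (fun x => h x.1.1) c hδ
    (H.2 V e0 ω Δ n σ h1 h2 (fun ν => ⟨(h3 ν).1, (h3 ν).2.trans e⟩) a (b.trans e) c (d.trans e))

theorem Hs.sg {G : GT ι} {T : AT ι} {s m : ℕ} {P K Z : ℝ} (h : Hs G T s m P K Z) (a : ι) :
    0 ≤ T.sg a := le_trans (inv_nonneg.2 (by linarith [h.P2])) (h.ao.s1 a)

theorem bw_pos (G : GT ι) (T : AT ι) {m : ℕ} (ω : (Option (Fin m) →₀ ℕ) → ℝ) (σ : ℝ)
    (c : JI G.w (Option (Fin m)) → ℝ) (β : Bx G m) : 0 < bw G T ω σ c β := Real.exp_pos _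

theorem Inc.mono {G : GT ι} {T : AT ι} {F : (ι → ℤ) → ℝ} {κ Z Z' : ℝ} (h : Inc G T F κ Z)
    (hZ : Z ≤ Z') : Inc G T F κ Z' := by
  obtain ⟨n, σ, y, c, a, b, d, e, f⟩ := h
  have := Real.exp_le_exp.2 hZ
  exact ⟨n, σ, y, c, a, b.trans this, d, e.trans this, f⟩

theorem pw_mono {P : ℝ} (hP : 2 ≤ P) {a b : ℕ} (h : a ≤ b) {Z : ℝ} (hZ : 0 ≤ Z) :
    P ^ a * Z ≤ P ^ b * Z :=
  mul_le_mul_of_nonneg_right (pow_le_pow_right₀ (by linarith) h) hZ

/-- a translated family stays dense -/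
theorem fam_shift (hD : DILB) (hI : INVT) {s m : ℕ} {G : GT ι} {T : AT ι} {P K Z δ ε : ℝ}
    (H : Hs G T s m P K Z) (hC : Cnts G T (4 * m + 4) δ Z) (h0 : 0 ≤ δ) (h1 : δ ≤ 1) (e0 : 0 ≤ ε)
    (e1 : 2 * s * ε * P ≤ 1) {x : Fin m → ℤ} (hx : ∀ l, |(x l : ℝ)| ≤ ε * K)
    (Fam : Finset (Bx G m)) :
    ∑ β ∈ Fam, bw G T (om s K) 1 0 β ≤ ∑ β ∈ Fam.image (Ph (sx x 1)), bw G T (om s K) 1 0 β +
      (2 * δ + 2 * s * ε * P ^ 2) * bm G T (om (m := m) s K) := by
  classical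
  obtain ⟨-, hinv, -⟩ := hD s m ι G T P K 1 H.ok (by linarith [H.P2]) H.ao H.un
    (by linarith [H.K1]) le_rfl
  have h := hI s m ι G T P K Z δ ε (-x) (fun β => if β ∈ Fam then 1 else 0) H hC h0 h1 e0 e1
    (fun l => by simpa using hx l) (fun β => by split_ifs <;> norm_num)
  rw [tsum_eq_sum (s := Fam) (fun β hβ => by rw [if_neg hβ, mul_zero]),
    tsum_eq_sum (s := Fam.image (Ph (sx x 1))) (fun β hβ => by
      rw [if_neg, mul_zero]
      intro h2
      have h3 := hinv (-x) β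
      rw [neg_neg] at h3
      exact hβ (mem_image.2 ⟨_, h2, h3⟩))] at h
  refine le_trans (le_of_eq (sum_congr rfl fun β hβ => by rw [if_pos hβ, mul_one])) (h.trans ?_)
  refine add_le_add (sum_le_sum fun β _ => ?_) le_rfl
  have := bw_pos G T (om s K) 1 0 β
  split_ifs <;> linarith

theorem subl (hL : LIFT) (hD : DILB) (hM : MASB) (hI : INVT) : SUBL := by
  classical
  intro s
  obtain ⟨c, hc⟩ := hL s
  refine ⟨c + 2, ?_⟩
  intro m ι _ _ G T P K Z Y B κ L r d x F Fam s1 H d1 dK Y0 hY hLZ κ0 κB hLb r3 hr hB hx hC hF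
    hFam hκ
  have P2 := H.P2
  have Z1 := H.Z1
  have K1 := H.K1
  have d0 : (1 : ℝ) ≤ d := by exact_mod_cast d1
  have s0 : (1 : ℝ) ≤ s := by exact_mod_cast s1
  have hsP : 2 ≤ s * P * d := by
    have : (1 : ℝ) * 2 * 1 ≤ s * P * d := by gcongr
    linarith
  have hZc : 4 * Z ≤ P ^ (c + 2) * Z := by
    refine le_trans ?_ (pw_mono P2 (show 2 ≤ c + 2 by omega) (by linarith))
    exact mul_le_mul_of_nonneg_right (by nlinarith) (by linarith)
  obtain ⟨hev, -, hinj, hbw, hbm, hbd⟩ := hD s m ι G T P K d H.ok (by linarith) H.ao H.un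
    (by linarith) d1
  have hC1 := cnts_mono H.sg le_rfl (show Z ≤ P ^ (c + 2) * Z by linarith) hC
  obtain ⟨-, hJ, -⟩ := hM s m ι G T P K Z _ H hC1
  have eY := Real.exp_pos Y
  have eY1 : 1 ≤ Real.exp Y := Real.one_le_exp Y0
  set ε : ℝ := (8 * s * P ^ 2 * Real.exp Y)⁻¹ with hε
  have hden : 0 < 8 * s * P ^ 2 * Real.exp Y := by positivity
  have hε2 : 2 * s * ε * P ^ 2 = Real.exp (-Y) / 4 := by
    rw [hε, Real.exp_neg]; field_simp; norm_num
  have enY : Real.exp (-Y) ≤ 1 := Real.exp_le_one_iff.2 (by linarith)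
  have h1 := fam_shift hD hI H hC1 (Real.exp_pos _).le (Real.exp_le_one_iff.2 (by linarith))
    (ε := ε) (by positivity) (by
      have : 2 * s * ε * P ≤ 2 * s * ε * P ^ 2 := by gcongr; nlinarith
      linarith) (x := x) (fun l => by rw [hε, inv_mul_eq_div, le_div_iff₀ hden]; exact hx l) Fam
  have hδ : 2 * Real.exp (-(P ^ (c + 2) * Z)) ≤ Real.exp (-Y) / 4 := by
    have a1 : Real.exp (-(P ^ (c + 2) * Z)) ≤ Real.exp (-Y) * Real.exp (-9) := by
      rw [← Real.exp_add]; exact Real.exp_le_exp.2 (by linarith)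
    have a2 : Real.exp (-9) ≤ 1 / 8 := by
      rw [Real.exp_neg, inv_le_comm₀ (Real.exp_pos _) (by norm_num)]
      linarith [Real.add_one_le_exp (9 : ℝ)]
    nlinarith [Real.exp_pos (-Y)]
  rw [hε2] at h1
  have h2 : Real.exp (-Y) / 2 * bm G T (om (m := m) s K) ≤
      ∑ β ∈ Fam.image (Ph (sx x 1)), bw G T (om s K) 1 0 β := by
    have := mul_le_mul_of_nonneg_right hδ hbm.le
    unfold Fm at hFam
    nlinarith
  have hKd : 1 ≤ K / d := by rw [le_div_iff₀ (by linarith)]; linarith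
  have hKd' : K / d ≤ K := div_le_self (by linarith) d0
  obtain ⟨n, σ, y, c', n1, n2, σ1, σ2, hfin⟩ := hc ι G T P (Y + 1 + s * P * d) Z B κ m L r
    (om s (K / d)) F ((Fam.image (Ph (sx x 1))).image (Ph (sx 0 (d : ℤ)))) s1 H.ok H.ao H.un P2 Z1
    (by linarith) hY (le_trans (mul_le_mul_of_nonneg_left (pow_le_pow_left₀ (by positivity)
      (by linarith [(Nat.cast_nonneg m : (0 : ℝ) ≤ m)]) s) (Nat.cast_nonneg _)) H.cd)
    (fun ν => ⟨(Real.exp_le_one_iff.2 (by linarith)).trans (one_le_pow₀ hKd),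
      ((pow_le_pow_right₀ hKd (min_le_left _ _)).trans
        (pow_le_pow_left₀ (by linarith) hKd' s)).trans H.KZ⟩) hLZ κ0 κB hLb r3 hr hB
    (cnts_mono H.sg (Real.exp_le_exp.2 (neg_le_neg (pw_mono P2 (by omega) (by linarith))))
      (pw_mono P2 (by omega) (by linarith)) hC) hF
    (by
      rw [sum_image fun a _ b _ h => hinj h]
      simp only [hbw]
      refine le_trans ?_ h2
      have a1 : (d : ℝ) ^ (s * Fintype.card (JI G.w (Option (Fin m)))) ≤ Real.exp (s * P * d) := by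
        refine (pow_le_pow_left₀ (by linarith)
          (show (d : ℝ) ≤ Real.exp d by linarith [Real.add_one_le_exp (d : ℝ)]) _).trans ?_
        rw [← Real.exp_nat_mul]
        exact Real.exp_le_exp.2 (by push_cast; gcongr)
      have a2 : Real.exp (-(Y + 1 + s * P * d)) * Real.exp (s * P * d) =
          Real.exp (-Y) * Real.exp (-1) := by
        rw [← Real.exp_add, ← Real.exp_add]; congr 1; ring
      have a3 : Real.exp (-1) ≤ 1 / 2 := by
        rw [Real.exp_neg, inv_le_comm₀ (Real.exp_pos _) (by norm_num)]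
        linarith [Real.add_one_le_exp (1 : ℝ)]
      calc _ ≤ Real.exp (-(Y + 1 + s * P * d)) * (Real.exp (s * P * d) * bm G T (om s K)) :=
            mul_le_mul_of_nonneg_left (hbd.trans (mul_le_mul_of_nonneg_right a1 hbm.le))
              (Real.exp_pos _).le
        _ = Real.exp (-Y) * Real.exp (-1) * bm G T (om s K) := by rw [← mul_assoc, a2]
        _ ≤ _ := by
            refine mul_le_mul_of_nonneg_right ?_ hbm.le
            nlinarith [Real.exp_pos (-Y)])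
    (by
      intro β hβ
      obtain ⟨β1, hβ1, rfl⟩ := mem_image.1 hβ
      obtain ⟨β0, hβ0, rfl⟩ := mem_image.1 hβ1
      simp only [hev, zero_add, one_smul]
      exact hκ β0 hβ0)
  exact ⟨n, σ, y, c', n1, n2.trans (Real.exp_le_exp.2 (by linarith)), σ1,
    σ2.trans (Real.exp_le_exp.2 (pw_mono P2 (by omega) (by linarith))), hfin⟩

end Vale.Agent.P057T.Sb
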