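import Vale.Agent.P057T.Sb.Start
import Vale.Agent.P057T.Sb.Boxs
import Vale.Agent.P057T.Sb.Dilb
import Vale.Agent.P057T.Sb.Invt
import Vale.Agent.P057T.Sb.Marg0
import Vale.Agent.P057T.Sb.Masb
import Vale.Agent.P057T.Sb.Nap
import Vale.Agent.P057T.Sb.Subl
import Vale.Agent.P057T.StartV0
import Vale.Agent.P057T.Cfg.CountH98
import Vale.Agent.P057T.Cfg.CFG
import Vale.Agent.P057T.Cfg.Dil
import Vale.Agent.P057T.Cfg.Jok
import Vale.Agent.P057T.Cp.All

/-! Closed forms of the rows of `Sb`. -/

namespace Vale.Agent.P057T.Sb.All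

open Vale.Agent.P057T.Eq Vale.Agent.P057T.Eq.All Vale.Agent.P057T.Cfg

theorem dilbc : DILB := dilb jok detc
theorem invtc : INVT := invt jok dilbc masb'
theorem marg0c : MARG0 := marg0 jok (cfg jok) Cp.All.fibrc detc
theorem napc : NAP := nap masb'
theorem boxsc : BOXS := boxs startv1
theorem countc : COUNT := H98.count jok (cfg jok) (H98.count1 dil_ok summ masss)
theorem sublc (hL : LIFT) : SUBL := subl hL dilbc masb' invtc
theorem startc (hL : LIFT) : START :=
  start boxsc countc dilbc masb' invtc marg0c napc (sublc hL)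

end Vale.Agent.P057T.Sb.All
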