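import Vale.Agent.P057T.Cfg.Defs
import Vale.Agent.P057T.StV0

/-! The start on boxes of a host and the use of the lifting lemma on sub-boxes. -/

open MvPolynomial Finset
open scoped Real BigOperators

namespace Vale.Agent.P057T.Sb

open Vale.Agent.P057T.Eq Vale.Agent.P057T.Cfg Vale.Agent.P057L

noncomputable section

variable {ι : Type} [Fintype ι] [DecidableEq ι]

/-- boxes with `m` directions -/
abbrev Bx (G : GT ι) (m : ℕ) : Type := JI G.w (Option (Fin m)) → ℤ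

/-- scales of the boxes -/
def om {m : ℕ} (s : ℕ) (K : ℝ) : (Option (Fin m) →₀ ℕ) → ℝ :=
  fun ν => K ^ min s (ν.degree - ν none)

/-- the substitution `t ↦ x + d t` -/
def sx {m : ℕ} (x : Fin m → ℤ) (d : ℤ) : Option (Fin m) → Option (Fin m) → ℤ := fun v v' =>
  v.elim (e0 m v') fun l => v'.elim (x l) fun l' => if l = l' then d else 0

/-- a function of the host read on the sub-box `x + d z` of `β` -/
def bx {G : GT ι} {m : ℕ} (β : Bx G m) (x : Fin m → ℤ) (d : ℕ) (g : (ι → ℤ) → ℝ) :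
    (Fin m → ℤ) → ℝ := fun z => g (ev (pt (x + (d : ℤ) • z)) β)

/-- a dense family of boxes -/
def Fm (G : GT ι) (T : AT ι) (s : ℕ) {m : ℕ} (K Y : ℝ) (Fam : Finset (Bx G m)) : Prop :=
  Real.exp (-Y) * bm G T (om (m := m) s K) ≤ ∑ β ∈ Fam, bw G T (om s K) 1 0 β

/-- the state with `j` classes on a dense family -/
def St (G : GT ι) (T : AT ι) (s m : ℕ) (K : ℝ) (g : (ι → ℤ) → ℝ) (j p L d : ℕ) (x : Fin m → ℤ)
    (θ Y : ℝ) : Prop :=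
  ∃ Fam : Finset (Bx G m), Fm G T s K Y Fam ∧ ∀ β ∈ Fam, θ ^ (p ^ j) ≤ grdV j p L (bx β x d g)

/-- a window on which `F` has mean at least `κ` -/
def Inc (G : GT ι) (T : AT ι) (F : (ι → ℤ) → ℝ) (κ Z : ℝ) : Prop :=
  ∃ (n : ℕ) (σ : ℝ) (y : ι → ℤ) (c' : ι → ℝ), 1 ≤ n ∧ (n : ℝ) ≤ Real.exp Z ∧ 1 ≤ σ ∧
    σ ≤ Real.exp Z ∧ κ * ∑' z : ι → ℤ, ww G T σ c' (y + (n : ℤ) • z) ≤
      ∑' z : ι → ℤ, ww G T σ c' (y + (n : ℤ) • z) * F (y + (n : ℤ) • z)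

/-- the projection of the host to the integers -/
def pj (x0 : ℤ) (l : ι → ℤ) (z : ι → ℤ) : ℤ := x0 + ∑ a, l a * z a

/-- the normalised indicator on the host -/
def fA (A : Finset ℤ) (α : ℝ) (x0 : ℤ) (l : ι → ℤ) (z : ι → ℤ) : ℝ :=
  if pj x0 l z ∈ A then 1 / α else 0

/-- standing hypotheses -/
structure Hs (G : GT ι) (T : AT ι) (s m : ℕ) (P K Z : ℝ) : Prop where
  ok : G.Ok s
  ao : G.AOk T P
  un : T.U = univ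
  P2 : 2 ≤ P
  cd : (Fintype.card ι : ℝ) * (4 * m + 5) ^ s ≤ P
  mP : (4 * m + 5 : ℝ) ≤ P
  K1 : 1 ≤ K
  Z1 : 1 ≤ Z
  KZ : K ^ s ≤ Real.exp Z

/-! ### Rows -/

/-- algebra of the substitutions -/
def DILB : Prop := ∀ (s m : ℕ) (ι : Type) [Fintype ι] [DecidableEq ι] (G : GT ι) (T : AT ι)
  (P K : ℝ) (d : ℕ), G.Ok s → 0 < P → G.AOk T P → T.U = univ → 0 < K → 1 ≤ d →
    (∀ (x z : Fin m → ℤ) (c : ℤ) (β : Bx G m),
      ev (pt z) (Ph (sx x c) β) = ev (pt (x + c • z)) β) ∧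
    (∀ (x : Fin m → ℤ) (β : Bx G m), Ph (sx (-x) 1) (Ph (sx x 1) β) = β) ∧
    Function.Injective (fun β : Bx G m => Ph (sx (0 : Fin m → ℤ) (d : ℤ)) β) ∧
    (∀ β : Bx G m, bw G T (om s (K / d)) 1 0 (Ph (sx 0 (d : ℤ)) β) = bw G T (om s K) 1 0 β) ∧
    0 < bm G T (om (m := m) s K) ∧
    bm G T (om (m := m) s (K / d)) ≤
      (d : ℝ) ^ (s * Fintype.card (JI G.w (Option (Fin m)))) * bm G T (om (m := m) s K)

/-- the mass of all boxes and of classes -/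
def MASB : Prop := ∀ (s m : ℕ) (ι : Type) [Fintype ι] [DecidableEq ι] (G : GT ι) (T : AT ι)
  (P K Z δ : ℝ), Hs G T s m P K Z → Cnts G T (4 * m + 4) δ Z →
    (0 < G.mn T.sg univ ∧ Summable (fun z : ι → ℤ => G.nu T z) ∧
      |∑' z : ι → ℤ, G.nu T z - G.mn T.sg univ| ≤ δ * G.mn T.sg univ) ∧
    (Fintype.card (JI G.w (Option (Fin m))) : ℝ) ≤ P ∧
    ∀ (n : ℕ) (σ : ℝ) (r : Bx G m), 1 ≤ n → (n : ℝ) ≤ Real.exp Z → 0 < σ → σ ≤ Real.exp Z →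
      Summable (fun β : Bx G m => bw G T (om s K) σ 0 (r + (n : ℤ) • β)) ∧
      |∑' β : Bx G m, bw G T (om s K) σ 0 (r + (n : ℤ) • β) -
          bm G T (om (m := m) s K) * ((σ * n) ^ Fintype.card (JI G.w (Option (Fin m))))⁻¹| ≤
        δ * (bm G T (om (m := m) s K) * ((σ * n) ^ Fintype.card (JI G.w (Option (Fin m))))⁻¹)

/-- the law of the boxes is almost invariant under translations -/
def INVT : Prop := ∀ (s m : ℕ) (ι : Type) [Fintype ι] [DecidableEq ι] (G : GT ι) (T : AT ι)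
  (P K Z δ ε : ℝ) (x : Fin m → ℤ) (H : Bx G m → ℝ), Hs G T s m P K Z → Cnts G T (4 * m + 4) δ Z →
    0 ≤ δ → δ ≤ 1 → 0 ≤ ε → 2 * s * ε * P ≤ 1 → (∀ l, |(x l : ℝ)| ≤ ε * K) →
    (∀ β, 0 ≤ H β ∧ H β ≤ 1) →
    ∑' β, bw G T (om s K) 1 0 β * H β ≤ ∑' β, bw G T (om s K) 1 0 β * H (Ph (sx x 1) β) +
      (2 * δ + 2 * s * ε * P ^ 2) * bm G T (om (m := m) s K)

/-- the law of the base point -/
def MARG0 : Prop := ∀ s : ℕ, ∃ c : ℕ, ∀ (m : ℕ) (ι : Type) [Fintype ι] [DecidableEq ι] (G : GT ι)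
  (T : AT ι) (WW : ℕ → ℝ) (P K Z : ℝ) (F : (ι → ℤ) → ℝ), Hs G T s m P K Z → G.Wd WW →
    Rs G WW (P ^ c) (P ^ c * Z) s → (∀ z, |F z| ≤ 1) →
    |G.mn T.sg univ * ∑' β : Bx G m, bw G T (om s K) 1 0 β * F (ev (pt 0) β) -
        bm G T (om (m := m) s K) * ∑' z : ι → ℤ, G.nu T z * F z| ≤
      Real.exp (-Z) * (G.mn T.sg univ * bm G T (om (m := m) s K))

open Classical in
/-- few boxes are degenerate -/
def NAP : Prop := ∀ (s m : ℕ) (ι : Type) [Fintype ι] [DecidableEq ι] (G : GT ι) (T : AT ι)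
  (P K Z δ : ℝ) (N n : ℕ) (l : ι → ℤ), Hs G T s m P K Z → Cnts G T (4 * m + 4) δ Z → δ ≤ 1 →
    1 ≤ n → (n : ℝ) ≤ Real.exp Z → l ≠ 0 → (∀ a, l a ≠ 0 → G.w a = 1) →
    (∑' β : Bx G m, bw G T (om s K) 1 0 β * (if ∃ t ∈ bz m N, ∃ t' ∈ bz m N, t ≠ t' ∧
        pj 0 l (ev (pt t) β) = pj 0 l (ev (pt t') β) then 1 else 0) ≤
      2 * (N : ℝ) ^ (2 * m) / n * bm G T (om (m := m) s K)) ∧
    ∀ (k : ℕ) (A : Finset ℤ) (x0 : ℤ) (β : Bx G m), APF (k + 2) A →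
      (∀ t ∈ bz m N, ∀ t' ∈ bz m N, pj 0 l (ev (pt t) β) = pj 0 l (ev (pt t') β) → t = t') →
      APV (k + 2) ((bz m N).filter fun t => pj x0 l (ev (pt t) β) ∈ A)

/-- lifting from sub-boxes -/
def SUBL : Prop := ∀ s : ℕ, ∃ c : ℕ, ∀ (m : ℕ) (ι : Type) [Fintype ι] [DecidableEq ι] (G : GT ι)
  (T : AT ι) (P K Z Y B κ : ℝ) (L r d : ℕ) (x : Fin m → ℤ) (F : (ι → ℤ) → ℝ) (Fam : Finset (Bx G m)),
    1 ≤ s → Hs G T s m P K Z → 1 ≤ d → (d : ℝ) ≤ K → 0 ≤ Y → Y + 1 + s * P * d ≤ Z →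
    (L : ℝ) ≤ Real.exp Z → 0 < κ → κ ≤ B →
    Real.exp (4 * (Y + 1 + s * P * d) + 20) * (B / κ) ^ 2 ≤ L → 3 ≤ r → 8 * s * r ≤ m →
    64 * B ≤ κ * 2 ^ r → (∀ l, |(x l : ℝ)| * (8 * s * P ^ 2 * Real.exp Y) ≤ K) →
    Cnts G T (4 * m + 4) (Real.exp (-(P ^ c * Z))) (P ^ c * Z) → (∀ z, |F z| ≤ B) →
    Fm G T s K Y Fam → (∀ β ∈ Fam, κ ≤ 𝔼 t ∈ bz m L, bx β x d F t) → Inc G T F (κ / 4) (P ^ c * Z)

/-- the start: an increment on a window or the first state -/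
def START : Prop := ∀ k s : ℕ, 1 ≤ k → 1 ≤ s → ∃ η : ℝ, 0 < η ∧ η ≤ 1 / 100 ∧ ∃ C : ℕ,
  ∀ (m N : ℕ) (ι : Type) [Fintype ι] [DecidableEq ι] (G : GT ι) (T : AT ι) (WW : ℕ → ℝ)
    (P K Z X α : ℝ) (A : Finset ℤ) (x0 : ℤ) (l : ι → ℤ), Hs G T s m P K Z → G.Wd WW →
    (C : ℝ) ≤ X → C * X ≤ m → (m : ℝ) ≤ X ^ 2 → (P * X) ^ C ≤ Real.log N →
    N * Real.exp ((P * X) ^ C) ≤ K → K ^ (3 * m) ≤ Real.exp Z →
    Rs G WW (P ^ C) (P ^ C * Z) s → l ≠ 0 → (∀ a, l a ≠ 0 → G.w a = 1) → APF (k + 2) A →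
    Real.exp (-X) ≤ α → ∑' z : ι → ℤ, G.nu T z ≤ ∑' z : ι → ℤ, G.nu T z * fA A α x0 l z →
    Inc G T (fA A α x0 l) (1 + η) (P ^ C * Z) ∨
    ∃ (p L : ℕ) (x : Fin m → ℤ), 1 ≤ p ∧ (p : ℝ) ≤ X ^ C ∧ 1 ≤ L ∧ L ≤ N ∧
      N ≤ L * Real.exp (X ^ C) ∧ (∀ i, |(x i : ℝ)| ≤ C * N) ∧
      St G T s m K (fA A α x0 l) (k + 1) p L ((k + 1).factorial ^ 2) x (1 + η) (X ^ C)

end

end Vale.Agent.P057T.Sb
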