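import Vale.Agent.P057T.StartV
import Vale.Agent.P057T.StV2

/-! The start in one box with positions on a mesh. -/

open Finset
open scoped BigOperators

namespace Vale.Agent.P057T.Sb

open Vale.Agent.P057L

/-- labels: kind, difference or number of copies, side, position -/
def BOXS : Prop := ∀ k : ℕ, 1 ≤ k → ∃ η : ℝ, 0 < η ∧ η ≤ 1 / 40 ∧ ∃ C : ℕ, ∀ (X : ℝ) (m N : ℕ),
  (C : ℝ) ≤ X → 1 ≤ m → (m : ℝ) ≤ X ^ 2 → X ^ C ≤ Real.log N →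
  ∃ (L : ℕ) (Λ : Finset (Bool × ℕ × ℕ × Vz m)), 1 ≤ L ∧ L ≤ N ∧ N ≤ L * Real.exp (X ^ C) ∧
    (Λ.card : ℝ) ≤ Real.exp (X ^ C) ∧
    (∀ a ∈ Λ, 1 ≤ a.2.1 ∧ (a.2.1 : ℝ) ≤ X ^ C ∧ L ≤ a.2.2.1 ∧ a.2.2.1 ≤ N ∧
      ∀ l, |(a.2.2.2 l : ℝ)| ≤ C * N) ∧
    ∀ (α : ℝ) (B : Vz m → Prop) [DecidablePred B], Real.exp (-X) ≤ α →
      APV (k + 2) ((bz m N).filter B) → (1 - η) * α * (N : ℝ) ^ m ≤ ((bz m N).filter B).card →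
      ∃ a ∈ Λ, (a.1 = true ∧ a.2.1 ≤ C ∧
          1 + η ≤ 𝔼 z ∈ bz m a.2.2.1, if B (a.2.2.2 + (a.2.1 : ℤ) • z) then 1 / α else 0) ∨
        (a.1 = false ∧ (1 + η) ^ (a.2.1 ^ (k + 1)) ≤ grdV (k + 1) a.2.1 L fun z =>
          if B (a.2.2.2 + (((k + 1).factorial ^ 2 : ℕ) : ℤ) • z) then 1 / α else 0)

end Vale.Agent.P057T.Sb
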