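import Vale.Agent.P057T.Sb.Defs
import Vale.Agent.P057T.Cfg.Bas

/-! Few boxes are degenerate. -/

open MvPolynomial Finset
open scoped Real BigOperators

namespace Vale.Agent.P057T.Sb

open Vale.Agent.P057T.Eq Vale.Agent.P057T.Cfg Vale.Agent.P057L

noncomputable section

set_option linter.unusedSectionVars false

namespace H81

/-- the zero set of a non zero integer form meets a share `1 / n` of the classes -/
theorem zer {J : Type} [Fintype J] [DecidableEq J] {k : J → ℤ} (hk : k ≠ 0) (f : (J → ℤ) → ℝ)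
    (f0 : ∀ β, 0 ≤ f β) {n : ℕ} (hn : 1 ≤ n) {c : ℝ}
    (hc : ∀ r : J → ℤ, Summable (fun z : J → ℤ => f (r + (n : ℤ) • z)) ∧
      ∑' z : J → ℤ, f (r + (n : ℤ) • z) ≤ c) (E : Finset (J → ℤ))
    (hE : ∀ β ∈ E, ∑ j, k j * β j = 0) :
    ∑ β ∈ E, f β ≤ (n : ℝ) ^ Fintype.card J / n * c := by
  classical
  have : NeZero n := ⟨by omega⟩
  obtain ⟨j0, hj0⟩ := Function.ne_iff.1 hk
  obtain ⟨k', h1, h2⟩ := Finset.extract_gcd k (s := univ) ⟨j0, mem_univ _⟩
  obtain ⟨u, hu⟩ := Finset.gcd_eq_sum_mul univ k'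
  have g0 : univ.gcd k ≠ 0 := fun e => hj0 (by rw [h1 j0 (mem_univ _), e, zero_mul]; rfl)
  let χ : (J → ZMod n) →+ ZMod n :=
    { toFun := fun r => ∑ j, (k' j : ZMod n) * r j
      map_zero' := by simp
      map_add' := fun a b => by simp only [Pi.add_apply, mul_add, sum_add_distrib] }
  have sj : χ.range = ⊤ := eq_top_iff.2 fun i _ => ⟨fun j => u j * i, by
    have := congrArg (Int.cast : ℤ → ZMod n) (h2.symm.trans hu)
    push_cast at this
    show ∑ j, (k' j : ZMod n) * (u j * i) = i
    simp only [← mul_assoc, ← sum_mul, ← this, one_mul]⟩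
  have cd : ((univ.filter fun r => χ r = 0).card : ℝ) = (n : ℝ) ^ Fintype.card J / n := by
    have := χ.ker.card_mul_index
    rw [AddSubgroup.index_ker, sj, AddSubgroup.card_top, Nat.card_zmod, Nat.card_pi] at this
    simp only [Nat.card_zmod, prod_const, card_univ] at this
    rw [eq_div_iff (by positivity), ← Nat.subtype_card (p := fun r => r ∈ χ.ker) _ (by simp)]
    exact_mod_cast this
  rw [← cd, ← nsmul_eq_mul, ← sum_fiberwise_of_maps_to (t := univ.filter fun r => χ r = 0)
    (g := fun β j => (β j : ZMod n)) fun β hβ => ?_]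
  · refine sum_le_card_nsmul _ _ _ fun r _ => ?_
    refine le_trans ?_ (hc fun j => ((r j).val : ℤ)).2
    have inj : Function.Injective fun z : J → ℤ => (fun j => ((r j).val : ℤ)) + (n : ℤ) • z :=
      fun a b h => smul_right_injective _ (by exact_mod_cast NeZero.ne n) (add_left_cancel h)
    rw [← sum_preimage _ _ inj.injOn f fun β hβ hb => (hb ?_).elim]
    · exact (hc _).1.sum_le_tsum _ fun _ _ => f0 _
    · have e := (mem_filter.1 hβ).2
      refine ⟨fun j => (β j - (r j).val) / n, funext fun j => ?_⟩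
      have : (n : ℤ) ∣ β j - (r j).val := (ZMod.intCast_eq_intCast_iff_dvd_sub _ _ _).1 (by
        rw [← congrFun e j]; simp)
      simp only [Pi.add_apply, Pi.smul_apply, smul_eq_mul]
      rw [Int.mul_ediv_cancel' this]
      ring
  · have e := hE β hβ
    rw [sum_congr rfl fun j hj => by rw [h1 j hj, mul_assoc], ← mul_sum] at e
    have := congrArg (Int.cast : ℤ → ZMod n) ((mul_eq_zero.1 e).resolve_left g0)
    push_cast at this
    exact mem_filter.2 ⟨mem_univ _, this⟩

variable {ι : Type} [Fintype ι] [DecidableEq ι] {G : GT ι} {m : ℕ}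

/-- the coefficients of the form -/
def cf (l : ι → ℤ) (t : Fin m → ℤ) (x : JI G.w (Option (Fin m))) : ℤ :=
  l x.1.1 * eval (pt t) (monomial x.1.2 1)

theorem pj_ev (x0 : ℤ) (l : ι → ℤ) (t : Fin m → ℤ) (β : Bx G m) :
    pj x0 l (ev (pt t) β) = x0 + ∑ x, cf l t x * β x := by
  unfold pj Cfg.ev pl cf
  simp only [map_sum, mul_sum]
  rw [sum_comm]
  refine congrArg _ (sum_congr rfl fun x _ => ?_)
  rw [sum_eq_single x.1.1]
  · rw [if_pos rfl, eval_monomial, eval_monomial]
    ring
  · intro b _ hb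
    rw [if_neg hb.symm, map_zero, mul_zero]
  · simp

theorem cf_aff {l : ι → ℤ} (hl : ∀ a, l a ≠ 0 → G.w a = 1) (a d : Fin m → ℤ) (i : ℤ)
    (x : JI G.w (Option (Fin m))) :
    cf l (a + i • d) x = cf l a x + i * (cf l (a + d) x - cf l a x) := by
  unfold cf
  by_cases h : l x.1.1 = 0
  · simp [h]
  · have h1 := (JI_deg x).trans (hl _ h)
    obtain ⟨v, hv⟩ := (Finsupp.sum_eq_one_iff x.1.2).1 h1
    rw [hv]
    simp only [eval_monomial, Finsupp.prod_single_index, pow_zero, pow_one, one_mul]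
    cases v <;> simp [pt] <;> ring

theorem pj_aff {l : ι → ℤ} (hl : ∀ a, l a ≠ 0 → G.w a = 1) (x0 : ℤ) (a d : Fin m → ℤ) (i : ℤ)
    (β : Bx G m) : pj x0 l (ev (pt (a + i • d)) β) = pj x0 l (ev (pt a) β) +
      i * (pj 0 l (ev (pt (a + d)) β) - pj 0 l (ev (pt a) β)) := by
  simp only [pj_ev, cf_aff hl a d i, add_mul, sum_add_distrib, zero_add, ← sum_sub_distrib,
    mul_sum, add_assoc]
  refine congrArg _ (congrArg _ (sum_congr rfl fun x _ => by ring))

theorem nap (hM : MASB) : NAP := by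
  classical
  intro s m ι _ _ G T P K Z δ N n l hH hC hδ hn hnZ hl hw
  obtain ⟨-, -, hm⟩ := hM s m ι G T P K Z δ hH hC
  have n0 : (0 : ℝ) < n := by exact_mod_cast hn
  have b0 : 0 ≤ bm G T (om (m := m) s K) := mul_nonneg (abs_nonneg _) (prod_nonneg fun a _ =>
    inv_nonneg.2 ((inv_nonneg.2 (zero_le_two.trans hH.P2)).trans (hH.ao.s1 _)))
  have w0 : ∀ β, 0 ≤ bw G T (om (m := m) s K) 1 0 β := fun β => (Real.exp_pos _).le
  refine ⟨tsum_le_of_sum_le' (by positivity) fun E => ?_, fun k A x0 β hA hi a d hd h => ?_⟩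
  · have key : ∀ t t' : Fin m → ℤ, ∑ β ∈ E, bw G T (om s K) 1 0 β *
        (if t ≠ t' ∧ pj 0 l (ev (pt t) β) = pj 0 l (ev (pt t') β) then 1 else 0) ≤
        2 / n * bm G T (om (m := m) s K) := fun t t' => by
      by_cases ht : t = t'
      · simp only [ht, ne_eq, not_true, false_and, if_false, mul_zero, sum_const_zero]
        positivity
      simp only [mul_ite, mul_one, mul_zero]
      rw [← sum_filter]
      obtain ⟨a, ha⟩ := Function.ne_iff.1 hl
      obtain ⟨i, hi⟩ := Function.ne_iff.1 ht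
      refine (zer (k := fun x => cf l t x - cf l t' x)
        (c := 2 * (bm G T (om (m := m) s K) *
          ((1 * (n : ℝ)) ^ Fintype.card (JI G.w (Option (Fin m))))⁻¹)) (fun e => ?_) _ w0 hn
        (fun r => ?_) _ fun β hβ => ?_).trans_eq ?_
      · have := congrFun e (Cfg.mk a (Finsupp.single (some i) 1) (by rw [hw a ha]; simp))
        simp only [cf, Cfg.mk, eval_monomial, Finsupp.prod_single_index, pow_zero, pow_one, one_mul,
          Pi.zero_apply, ← mul_sub] at this
        exact hi (sub_eq_zero.1 ((mul_eq_zero.1 this).resolve_left ha))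
      · obtain ⟨h1, h2⟩ := hm n 1 r hn hnZ one_pos (Real.one_le_exp (zero_le_one.trans hH.Z1))
        refine ⟨h1, ?_⟩
        have h3 := (abs_le.1 h2).2
        have h4 : 0 ≤ bm G T (om (m := m) s K) *
          ((1 * (n : ℝ)) ^ Fintype.card (JI G.w (Option (Fin m))))⁻¹ := by positivity
        nlinarith
      · have := (mem_filter.1 hβ).2.2
        rw [pj_ev, pj_ev, zero_add, zero_add] at this
        simp only [sub_mul, sum_sub_distrib, this, sub_self]
      · rw [one_mul]
        field_simp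
    calc _ ≤ ∑ β ∈ E, ∑ p ∈ bz m N ×ˢ bz m N, bw G T (om s K) 1 0 β *
          (if p.1 ≠ p.2 ∧ pj 0 l (ev (pt p.1) β) = pj 0 l (ev (pt p.2) β) then 1 else 0) := by
          refine sum_le_sum fun β _ => ?_
          have nn : ∀ p ∈ bz m N ×ˢ bz m N, 0 ≤ bw G T (om s K) 1 0 β *
              (if p.1 ≠ p.2 ∧ pj 0 l (ev (pt p.1) β) = pj 0 l (ev (pt p.2) β) then (1 : ℝ)
                else 0) := fun p _ => mul_nonneg (w0 β) (by split_ifs <;> norm_num)
          split_ifs with c
          · obtain ⟨t, h1, t', h2, h3⟩ := c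
            refine le_trans ?_ (single_le_sum nn (mem_product.2 ⟨h1, h2⟩ : (t, t') ∈ _))
            rw [if_pos h3]
          · rw [mul_zero]
            exact sum_nonneg nn
      _ ≤ (bz m N ×ˢ bz m N).card • (2 / n * bm G T (om (m := m) s K)) := by
          rw [sum_comm]
          exact sum_le_card_nsmul _ _ _ fun p _ => key p.1 p.2
      _ = _ := by
          rw [card_product, SV.bz_card, nsmul_eq_mul]
          push_cast
          ring
  · have h0 := mem_filter.1 (h 0 (by omega))
    have h1 := mem_filter.1 (h 1 (by omega))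
    simp only [Nat.cast_zero, zero_smul, add_zero, Nat.cast_one, one_smul] at h0 h1
    have e : ∀ i : ℕ, i < k + 2 → pj x0 l (ev (pt a) β) +
        i * (pj 0 l (ev (pt (a + d)) β) - pj 0 l (ev (pt a) β)) ∈ A := fun i hi =>
      pj_aff hw x0 a d i β ▸ (mem_filter.1 (h i hi)).2
    have ne : pj 0 l (ev (pt (a + d)) β) - pj 0 l (ev (pt a) β) ≠ 0 := fun c =>
      hd (add_eq_left.1 (hi _ h1.1 _ h0.1 (sub_eq_zero.1 c)))
    generalize pj 0 l (ev (pt (a + d)) β) - pj 0 l (ev (pt a) β) = D at e ne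
    generalize pj x0 l (ev (pt a) β) = y at e
    rcases lt_or_gt_of_ne ne with c | c
    · refine hA (y + (k + 1) * D) (-D) (by omega) fun i hi => ?_
      have := e (k + 1 - i) (by omega)
      rw [Nat.cast_sub (by omega)] at this
      convert this using 1
      push_cast
      ring
    · exact hA y D c e

end H81

end

end Vale.Agent.P057T.Sb
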