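import Vale.Agent.P057T.Sb.Subl
import Vale.Agent.P057T.Sb.Masb

/-! Tools for the row `START`. -/

open MvPolynomial Finset
open scoped Real BigOperators

namespace Vale.Agent.P057T.Sb.StA

open Vale.Agent.P057T.Eq Vale.Agent.P057T.Cfg Vale.Agent.P057L

section abs

variable {β : Type}

theorem sm_mul {w a : β → ℝ} {B : ℝ} (hw : Summable w) (w0 : ∀ b, 0 ≤ w b) (ha : ∀ b, |a b| ≤ B) :
    Summable fun b => w b * a b :=
  Summable.of_norm_bounded (hw.mul_right B) fun b => by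
    rw [Real.norm_eq_abs, abs_mul, abs_of_nonneg (w0 b)]
    exact mul_le_mul_of_nonneg_left (ha b) (w0 b)

theorem sm_ind {w : β → ℝ} (hw : Summable w) (w0 : ∀ b, 0 ≤ w b) (p : β → Prop) [DecidablePred p] :
    Summable fun b => w b * if p b then (1 : ℝ) else 0 :=
  sm_mul hw w0 (B := 1) fun b => by split_ifs <;> simp

theorem fam {w : β → ℝ} (hw : Summable w) (w0 : ∀ b, 0 ≤ w b) (p : β → Prop) [DecidablePred p]
    {a : ℝ}
    (h : a < ∑' b, w b * if p b then (1 : ℝ) else 0) :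
    ∃ F : Finset β, (∀ b ∈ F, p b) ∧ a ≤ ∑ b ∈ F, w b := by
  obtain ⟨s, hs⟩ := ((sm_ind hw w0 p).hasSum.eventually (lt_mem_nhds h)).exists
  refine ⟨s.filter p, fun b hb => (mem_filter.1 hb).2, hs.le.trans (le_of_eq ?_)⟩
  rw [sum_filter]
  exact sum_congr rfl fun b _ => by by_cases h : p b <;> simp [h]

theorem split3 {w a : β → ℝ} {B b η ε δ τ : ℝ} (hw : Summable w) (w0 : ∀ x, 0 ≤ w x)
    (ha : ∀ x, 0 ≤ a x ∧ a x ≤ B) (b0 : 0 < b) (η0 : 0 < η) (η1 : η ≤ 1) (δ0 : 0 ≤ δ)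
    (ht : ∑' x, w x ≤ (1 + δ) * b) (hm : (1 - ε) * b ≤ ∑' x, w x * a x) (bad : β → Prop)
    [DecidablePred bad] (B0 : 0 ≤ B) (h1 : ∑' x, w x * (if bad x then (1 : ℝ) else 0) ≤ τ * b)
    (h2 : ∑' x, w x * (if 1 + η ≤ a x then (1 : ℝ) else 0) ≤ τ * b)
    (hn : ε + δ + 2 * B * τ ≤ η / 2) :
    b / 8 < ∑' x, w x * if 1 - η ≤ a x ∧ ¬ bad x then (1 : ℝ) else 0 := by
  have s1 := sm_ind hw w0 bad
  have s2 := sm_ind hw w0 fun x => 1 + η ≤ a x
  have s3 := sm_ind hw w0 fun x => 1 - η ≤ a x ∧ ¬ bad x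
  have key := ((sm_mul hw w0 (B := B) fun x => by
    rw [abs_of_nonneg (ha x).1]; exact (ha x).2).hasSum)
  have tot := (((hw.hasSum.mul_left (1 - η)).add (s3.hasSum.mul_left (2 * η))).add
    (s2.hasSum.mul_left B)).add (s1.hasSum.mul_left B)
  have hle := hasSum_le (fun x => ?_) key tot
  · have a1 := mul_le_mul_of_nonneg_left ht (sub_nonneg.2 η1)
    have a2 := mul_le_mul_of_nonneg_left h1 B0
    have a3 := mul_le_mul_of_nonneg_left h2 B0
    have a4 := mul_le_mul_of_nonneg_right hn b0.le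
    by_contra hc
    push Not at hc
    have a5 := mul_le_mul_of_nonneg_left hc η0.le
    have a6 : 0 ≤ η * δ * b := by positivity
    have a7 : 0 < η * b := by positivity
    nlinarith
  · have := w0 x
    obtain ⟨u, v⟩ := ha x
    have e : a x ≤ (1 - η) + 2 * η * (if 1 - η ≤ a x ∧ ¬ bad x then (1 : ℝ) else 0) +
        B * (if 1 + η ≤ a x then (1 : ℝ) else 0) + B * (if bad x then (1 : ℝ) else 0) := by
      by_cases c1 : bad x <;> by_cases c2 : 1 + η ≤ a x <;> by_cases c3 : 1 - η ≤ a x <;>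
        simp only [c1, c2, c3, not_true, not_false_iff, and_true, and_false, true_and, false_and,
          if_true, if_false] <;> nlinarith
    nlinarith [mul_le_mul_of_nonneg_left e this]

open Classical in
theorem pig {Λ : Type} (F : Finset β) (w : β → ℝ) (L : Finset Λ) (Q : Λ → β → Prop) {a : ℝ}
    (a0 : 0 < a) (h : a ≤ ∑ b ∈ F, w b) (hQ : ∀ b ∈ F, ∃ l ∈ L, Q l b) :
    ∃ l ∈ L, ∃ F' : Finset β, (∀ b ∈ F', Q l b) ∧ F'.Nonempty ∧ a ≤ L.card * ∑ b ∈ F', w b := by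
  have hL : L.Nonempty := by
    rcases F.eq_empty_or_nonempty with e | ⟨b, hb⟩
    · rw [e, sum_empty] at h; linarith
    · obtain ⟨l, hl, -⟩ := hQ b hb
      exact ⟨l, hl⟩
  have : Nonempty Λ := ⟨hL.choose⟩
  choose! f hf hq using hQ
  have h1 : ∑ _l ∈ L, a ≤ ∑ l ∈ L, (L.card : ℝ) * ∑ b ∈ F.filter (fun b => f b = l), w b := by
    rw [← mul_sum, sum_fiberwise_of_maps_to hf, sum_const, nsmul_eq_mul]
    exact mul_le_mul_of_nonneg_left h (Nat.cast_nonneg _)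
  obtain ⟨l, hl, h2⟩ := exists_le_of_sum_le hL h1
  refine ⟨l, hl, _, fun b hb => ?_, ?_, h2⟩
  · obtain ⟨b1, b2⟩ := mem_filter.1 hb
    exact b2 ▸ hq b b1
  · by_contra hc
    rw [not_nonempty_iff_eq_empty.1 hc, sum_empty, mul_zero] at h2
    linarith

end abs

variable {ι : Type} [Fintype ι] [DecidableEq ι]

theorem rs_mono2 {G : GT ι} {WW : ℕ → ℝ} {c c' Y Y' : ℝ} {s : ℕ} (h : Rs G WW c' Y' s)
    (hW : ∀ g, 0 ≤ WW g) (hc0 : 0 < c) (hc : c ≤ c') (hY0 : 0 < Y) (hY : Y ≤ Y') :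
    Rs G WW c Y s := by
  intro g hg
  have h1 : ∀ g, c * (Y + WW g) ≤ c' * (Y' + WW g) := fun g =>
    mul_le_mul hc (by linarith) (by linarith [hW g]) (by linarith)
  have h2 : 0 < c * (Y + WW g) := mul_pos hc0 (by linarith [hW g])
  refine ⟨(h g hg).1.mono (Real.exp_le_exp.2 (h1 g)), (h g hg).2.mono ?_⟩
  exact mul_le_mul (Real.exp_le_exp.2 (neg_le_neg (h1 _))) (inv_anti₀ h2 (h1 g))
    (inv_nonneg.2 (h2.le.trans (h1 g))) (Real.exp_pos _).le

theorem inc_add {G : GT ι} {T : AT ι} (hU : T.U = univ) {M : ℕ} {δ Z κ B : ℝ} {g : (ι → ℤ) → ℝ}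
    (hC : Cnts G T M δ Z) (hg : ∀ z, |g z| ≤ B) (h : Inc G T (fun z => g z - 1) κ Z) :
    Inc G T g (1 + κ) Z := by
  obtain ⟨n, σ, y, c, a1, a2, a3, a4, a5⟩ := h
  refine ⟨n, σ, y, c, a1, a2, a3, a4, ?_⟩
  have s1 := (Masb.cnt_univ hU (hC.1 n σ a1 a2 (by linarith) a4) y c).1
  have s2 := sm_mul s1 (fun z => (Real.exp_pos _).le) (a := fun z => g (y + (n : ℤ) • z))
    fun z => hg _
  simp only [mul_sub, mul_one] at a5
  rw [s2.tsum_sub s1] at a5
  linarith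

/-- the mean over boxes of the mean over a box -/
theorem mean (hD : DILB) (hM : MASB) (hI : INVT) {s m N : ℕ} {G : GT ι} {T : AT ι}
    {P K Z δ τ α : ℝ} (H : Hs G T s m P K Z) (hC : Cnts G T (4 * m + 4) δ Z) (h0 : 0 ≤ δ)
    (hδ : δ ≤ τ) (τ1 : τ ≤ α) (α1 : α ≤ 1) (N1 : 1 ≤ N) (hN : 2 * s * (N / K) * P ^ 2 ≤ τ)
    {g : (ι → ℤ) → ℝ} (hg : ∀ z, 0 ≤ α * g z ∧ α * g z ≤ 1) (α0 : 0 < α)
    (hd : ∑' z : ι → ℤ, G.nu T z ≤ ∑' z : ι → ℤ, G.nu T z * g z)
    (h1 : |G.mn T.sg univ * ∑' β : Bx G m, bw G T (om s K) 1 0 β * (α * g (ev (pt 0) β)) -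
        bm G T (om (m := m) s K) * ∑' z : ι → ℤ, G.nu T z * (α * g z)| ≤
      τ * (G.mn T.sg univ * bm G T (om (m := m) s K))) :
    (1 - 5 * τ / α) * bm G T (om (m := m) s K) ≤
      ∑' β : Bx G m, bw G T (om s K) 1 0 β * 𝔼 t ∈ bz m N, g (ev (pt t) β) := by
  have P2 := H.P2
  have K1 := H.K1
  obtain ⟨hev, -, -, -, hb, -⟩ := hD s m ι G T P K 1 H.ok (by linarith) H.ao H.un
    (by linarith) le_rfl
  obtain ⟨⟨m0, -, m2⟩, -, m3⟩ := hM s m ι G T P K Z δ H hC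
  have eZ : (1 : ℝ) ≤ Real.exp Z := Real.one_le_exp (by linarith [H.Z1])
  have sw := (m3 1 1 0 le_rfl (by simpa using eZ) one_pos eZ).1
  simp only [Nat.cast_one, one_smul, zero_add] at sw
  set b := bm G T (om (m := m) s K)
  set μ := G.mn T.sg univ
  have e1 : ∑' z : ι → ℤ, G.nu T z * (α * g z) = α * ∑' z : ι → ℤ, G.nu T z * g z := by
    rw [← tsum_mul_left]; exact tsum_congr fun z => by ring
  have h2 : (α - 2 * τ) * b ≤ ∑' β : Bx G m, bw G T (om s K) 1 0 β * (α * g (ev (pt 0) β)) := by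
    refine le_of_mul_le_mul_left ?_ m0
    have a1 := (abs_le.1 h1).1
    have a2 := (abs_le.1 m2).1
    rw [e1] at a1
    have a3 : (1 - δ) * μ ≤ ∑' z : ι → ℤ, G.nu T z * g z := by linarith
    have a4 := mul_le_mul_of_nonneg_left a3 (mul_pos hb α0).le
    have a5 : α * δ ≤ τ := by nlinarith
    have a6 := mul_le_mul_of_nonneg_right a5 (mul_pos hb m0).le
    nlinarith
  have h3 : ∀ t ∈ bz m N, (1 - 5 * τ / α) * b ≤
      ∑' β : Bx G m, bw G T (om s K) 1 0 β * g (ev (pt t) β) := by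
    intro t ht
    have s0 : (0 : ℝ) ≤ 2 * s * (N / K) := by positivity
    have h4 := hI s m ι G T P K Z δ (N / K) t (fun β => α * g (ev (pt 0) β)) H hC h0
      (by linarith) (by positivity) (by nlinarith [mul_le_mul_of_nonneg_left (show P ≤ P ^ 2 by nlinarith) s0])
      (fun l => by
        rw [div_mul_cancel₀ _ (by linarith)]
        have := mem_Ico.1 (Fintype.mem_piFinset.1 ht l)
        rw [abs_of_nonneg (by exact_mod_cast this.1)]
        exact_mod_cast this.2.le) (fun β => hg _)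
    simp only [hev, smul_zero, add_zero] at h4
    have e2 : ∑' β : Bx G m, bw G T (om s K) 1 0 β * (α * g (ev (pt t) β)) =
        α * ∑' β : Bx G m, bw G T (om s K) 1 0 β * g (ev (pt t) β) := by
      rw [← tsum_mul_left]; exact tsum_congr fun z => by ring
    rw [e2] at h4
    refine le_of_mul_le_mul_left ?_ α0
    have e3 : α * ((1 - 5 * τ / α) * b) = (α - 5 * τ) * b := by field_simp
    have a1 := mul_le_mul_of_nonneg_right (show 2 * δ + 2 * s * (N / K) * P ^ 2 ≤ 3 * τ by linarith)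
      hb.le
    rw [e3]; nlinarith
  have gb : ∀ z, |g z| ≤ 1 / α := fun z => by
    have g0 : 0 ≤ g z := nonneg_of_mul_nonneg_right (by linarith [(hg z).1]) α0 |> fun h => h
    rw [abs_of_nonneg g0, le_div_iff₀ α0]; linarith [(hg z).2]
  have ne := SV.bz_ne (m := m) N1
  have e4 : ∑' β : Bx G m, bw G T (om s K) 1 0 β * 𝔼 t ∈ bz m N, g (ev (pt t) β) =
      𝔼 t ∈ bz m N, ∑' β : Bx G m, bw G T (om s K) 1 0 β * g (ev (pt t) β) := by
    simp only [expect_eq_sum_div_card, ← mul_div_assoc, mul_sum]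
    rw [tsum_div_const, Summable.tsum_finsetSum fun t _ =>
      sm_mul sw (fun β => (bw_pos G T _ _ _ β).le) fun β => gb _]
  rw [e4]
  exact le_expect ne h3

end Vale.Agent.P057T.Sb.StA
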