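import Vale.Agent.P057T.Sb.StA
import Vale.Agent.P057T.Sb.Defs2

/-! Numerical helpers for row `START`. -/

open MvPolynomial Finset
open scoped Real BigOperators

namespace Vale.Agent.P057T.Sb

open Vale.Agent.P057T.Eq Vale.Agent.P057T.Cfg Vale.Agent.P057L StA

namespace StA

structure Nm (s C1 N : ℕ) (η P X K Z U : ℝ) : Prop where
  N1 : 1 ≤ N
  NK : (N : ℝ) ≤ K
  KZ : K ≤ Real.exp Z
  UZ : 16 * U ≤ Z
  UN : Real.exp (16 * U) ≤ N
  UK : N * Real.exp (16 * U) ≤ K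
  u1 : X ^ C1 + 4 + X * P * X ≤ U
  u2 : 8 * X * P ^ 2 * X ≤ U
  eX : 100 ≤ η * Real.exp X
  X1 : 100 ≤ X

theorem nums {s C1 C N : ℕ} {η P X K Z : ℝ} (hC : C1 + 5 ≤ C) (s1 : 1 ≤ s) (η0 : 0 < η) (η1 : η ≤ 1)
    (hη : 100 / η ≤ X) (P2 : 2 ≤ P) (hN : (P * X) ^ C ≤ Real.log N)
    (hK : N * Real.exp ((P * X) ^ C) ≤ K) (hZ : K ^ s ≤ Real.exp Z) :
    Nm s C1 N η P X K Z ((P * X) ^ (C1 + 3)) := by
  rw [div_le_iff₀ η0] at hη
  have X1 : 100 ≤ X := by nlinarith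
  obtain ⟨u, hu⟩ : ∃ u, u = P * X := ⟨_, rfl⟩
  have uX : 2 * X ≤ u := by nlinarith
  have u1 : 1 ≤ u := by linarith
  rw [← hu] at hN hK ⊢
  obtain ⟨U, hU⟩ : ∃ U, U = u ^ (C1 + 3) := ⟨_, rfl⟩
  rw [← hU]
  have c0 : 1 ≤ u ^ C1 := one_le_pow₀ u1
  have c1 : X ^ C1 ≤ u ^ C1 := pow_le_pow_left₀ (by linarith) (by linarith) _
  have c2 : U = u ^ C1 * u ^ 3 := by rw [hU, pow_add]
  have c3 : 200 * u ^ 2 ≤ u ^ 3 := by nlinarith [sq_nonneg u]
  have c4 : 1 ≤ u ^ 2 := one_le_pow₀ u1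
  have c5 : u ^ 3 ≤ U := by rw [c2]; exact le_mul_of_one_le_left (by positivity) c0
  have c6 : 16 * U ≤ u ^ C := by
    refine le_trans ?_ (pow_le_pow_right₀ u1 hC)
    rw [show C1 + 5 = C1 + 3 + 2 by ring, pow_add, ← hU, mul_comm]
    exact mul_le_mul_of_nonneg_left (by nlinarith) (by linarith)
  have U0 : 0 < U := by linarith
  have N0 : (0 : ℝ) < N := by
    rcases Nat.eq_zero_or_pos N with h | h
    · rw [h, Nat.cast_zero, Real.log_zero] at hN; linarith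
    · exact_mod_cast h
  have a1 : Real.exp (16 * U) ≤ N := by
    rw [← Real.exp_log N0]; exact Real.exp_le_exp.2 (c6.trans hN)
  have a2 : N * Real.exp (16 * U) ≤ K := le_trans (by gcongr) hK
  have a3 : 1 ≤ Real.exp (16 * U) := Real.one_le_exp (by linarith)
  have a4 : (N : ℝ) ≤ K := le_trans (le_mul_of_one_le_right N0.le a3) a2
  have a5 : K ≤ Real.exp Z := (le_self_pow₀ (by linarith) (by omega)).trans hZ
  refine ⟨by exact_mod_cast a3.trans a1, a4, a5, Real.exp_le_exp.1 (a1.trans (a4.trans a5)), a1, a2,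
    ?_, ?_, ?_, X1⟩
  · have b1 : X * P * X ≤ u ^ 2 := by rw [mul_comm X P, ← hu]; nlinarith
    have b2 : u ^ C1 * (200 * u ^ 2) ≤ U := by rw [c2]; gcongr
    nlinarith
  · have b1 : 8 * X * P ^ 2 * X = 8 * u ^ 2 := by rw [hu]; ring
    linarith
  · nlinarith [Real.add_one_le_exp X]

variable {ι : Type} [Fintype ι] [DecidableEq ι]

theorem useL {s c m C1 N : ℕ} (hS : ∀ (m : ℕ) (ι : Type) [Fintype ι] [DecidableEq ι] (G : GT ι)
  (T : AT ι) (P K Z Y B κ : ℝ) (L r d : ℕ) (x : Fin m → ℤ) (F : (ι → ℤ) → ℝ) (Fam : Finset (Bx G m)),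
    1 ≤ s → Hs G T s m P K Z → 1 ≤ d → (d : ℝ) ≤ K → 0 ≤ Y → Y + 1 + s * P * d ≤ Z →
    (L : ℝ) ≤ Real.exp Z → 0 < κ → κ ≤ B →
    Real.exp (4 * (Y + 1 + s * P * d) + 20) * (B / κ) ^ 2 ≤ L → 3 ≤ r → 8 * s * r ≤ m →
    64 * B ≤ κ * 2 ^ r → (∀ l, |(x l : ℝ)| * (8 * s * P ^ 2 * Real.exp Y) ≤ K) →
    Cnts G T (4 * m + 4) (Real.exp (-(P ^ c * Z))) (P ^ c * Z) → (∀ z, |F z| ≤ B) →
    Fm G T s K Y Fam → (∀ β ∈ Fam, κ ≤ 𝔼 t ∈ bz m L, bx β x d F t) →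
    Inc G T F (κ / 4) (P ^ c * Z))
    {G : GT ι} {T : AT ι} {η P X K Z U Y : ℝ} (n : Nm s C1 N η P X K Z U) (s1 : 1 ≤ s)
    (H : Hs G T s m P K Z) (η0 : 0 < η) (η1 : η ≤ 1) (sX : (s : ℝ) ≤ X) (hm : 40 * s * X ≤ m)
    (hC : Cnts G T (4 * m + 4) (Real.exp (-(P ^ c * Z))) (P ^ c * Z)) {g : (ι → ℤ) → ℝ}
    (hg : ∀ z, 0 ≤ g z ∧ g z ≤ Real.exp X) {d L : ℕ} {x : Fin m → ℤ} (d1 : 1 ≤ d)
    (dX : (d : ℝ) ≤ X) (Y0 : 0 ≤ Y) (hY : Y + 1 + s * P * d ≤ U) (hL : N ≤ L * Real.exp U)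
    (LN : L ≤ N) (hx : ∀ l, |(x l : ℝ)| ≤ X * N) {Fam : Finset (Bx G m)} (hF : Fm G T s K Y Fam)
    (h : ∀ β ∈ Fam, 1 + η ≤ 𝔼 t ∈ bz m L, bx β x d g t) : Inc G T g (1 + η / 4) (P ^ c * Z) := by
  have P2 := H.P2
  have X1 := n.X1
  have eX := n.eX
  have e1 : X + 1 ≤ Real.exp X := Real.add_one_le_exp X
  have XU : 8 * X ≤ U := by
    refine le_trans ?_ n.u2
    have : 8 * X * 1 * 1 ≤ 8 * X * P ^ 2 * X := by gcongr <;> nlinarith
    linarith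
  have sPd : 0 ≤ (s : ℝ) * P * d := by positivity
  have eU := Real.exp_pos U
  have LU : Real.exp (15 * U) ≤ L := by
    refine le_of_mul_le_mul_right ?_ eU
    rw [← Real.exp_add]
    exact le_trans (le_of_eq (by congr 1; ring)) (n.UN.trans hL)
  have L1 : 1 ≤ L := by exact_mod_cast (Real.one_le_exp (by linarith)).trans LU
  have N1 : (1 : ℝ) ≤ N := by exact_mod_cast n.N1
  have r1 : 4 * X ≤ ⌈4 * X⌉₊ := Nat.le_ceil _
  have r2 : (⌈4 * X⌉₊ : ℝ) ≤ 5 * X := by linarith [Nat.ceil_lt_add_one (show 0 ≤ 4 * X by linarith)]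
  refine inc_add H.un hC (B := Real.exp X) (fun z => by rw [abs_of_nonneg (hg z).1]; exact (hg z).2)
    (hS m ι G T P K Z Y (Real.exp X) η L ⌈4 * X⌉₊ d x (fun z => g z - 1) Fam s1 H d1 ?_ Y0
      (by linarith [n.UZ]) ((Nat.cast_le.2 LN).trans (n.NK.trans n.KZ)) η0 (by linarith) ?_
      (by exact_mod_cast (show ((3 : ℕ) : ℝ) ≤ ⌈4 * X⌉₊ by push_cast; linarith)) ?_ ?_ ?_ hC
      (fun z => abs_le.2 ⟨by linarith [(hg z).1], by linarith [(hg z).2]⟩) hF ?_)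
  · linarith [n.NK, n.UN, Real.add_one_le_exp (16 * U)]
  · have a1 : Real.exp X / η ≤ Real.exp (2 * X) := by
      rw [div_le_iff₀ η0, two_mul, Real.exp_add]; nlinarith
    refine le_trans (mul_le_mul (Real.exp_le_exp.2 (show _ ≤ 4 * U + 20 by linarith))
      (pow_le_pow_left₀ (by positivity) a1 2) (by positivity) (Real.exp_pos _).le) ?_
    rw [← Real.exp_nat_mul, ← Real.exp_add]
    exact (Real.exp_le_exp.2 (by push_cast; linarith)).trans LU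
  · have : ((8 * s * ⌈4 * X⌉₊ : ℕ) : ℝ) ≤ m := by
      push_cast
      nlinarith [mul_le_mul_of_nonneg_left r2 (Nat.cast_nonneg (α := ℝ) s)]
    exact_mod_cast this
  · have a1 : Real.exp (2 * X) ≤ 2 ^ ⌈4 * X⌉₊ := by
      rw [← Real.exp_log (show (0 : ℝ) < 2 ^ ⌈4 * X⌉₊ by positivity), Real.log_pow]
      exact Real.exp_le_exp.2 (by nlinarith [Real.log_two_gt_d9])
    rw [two_mul, Real.exp_add] at a1
    nlinarith [mul_le_mul_of_nonneg_left a1 η0.le]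
  · intro l
    have a1 : 8 * s * P ^ 2 * X ≤ Real.exp U :=
      le_trans (by gcongr) (n.u2.trans (by linarith [Real.add_one_le_exp U]))
    calc _ ≤ X * N * (8 * s * P ^ 2 * Real.exp U) := by
          gcongr
          · exact hx l
          · linarith
      _ = N * (8 * s * P ^ 2 * X * Real.exp U) := by ring
      _ ≤ N * (Real.exp U * Real.exp U) := by gcongr
      _ ≤ N * Real.exp (16 * U) := by rw [← Real.exp_add]; gcongr; linarith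
      _ ≤ K := n.UK
  · intro β hβ
    have := h β hβ
    simp only [bx] at this ⊢
    rw [expect_sub_distrib, expect_const (SV.bz_ne L1)]
    linarith

theorem cnts (s c2 : ℕ) (hCt : COUNT) : ∃ c : ℕ, ∀ {ι : Type} [Fintype ι] [DecidableEq ι] {G : GT ι}
    {T : AT ι} {WW : ℕ → ℝ} {m C : ℕ} {P K Z : ℝ}, Hs G T s m P K Z → G.Wd WW → c ≤ C →
    Rs G WW (P ^ C) (P ^ C * Z) s →
    Cnts G T (4 * m + 4) (Real.exp (-(P ^ c2 * Z))) (P ^ c2 * Z) := by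
  obtain ⟨c3, h3⟩ := hCt s
  refine ⟨c3 + (c2 + (3 * s + 7 + s ^ 3) + 1), ?_⟩
  intro ι _ _ G T WW m C P K Z H hW hc hR
  have P2 := H.P2
  have Z1 := H.Z1
  have p1 := one_le_pw P2 c2
  have z1 : 1 ≤ P ^ c2 * Z := one_le_mul_of_one_le_of_one_le p1 Z1
  have m0 : (0 : ℝ) ≤ m := Nat.cast_nonneg m
  refine h3 ι G T WW P _ _ (4 * m + 4) H.ok hW ⟨le_trans (le_mul_of_one_le_right (Nat.cast_nonneg _)
    (one_le_pow₀ (by linarith))) H.cd, P2, z1⟩ H.ao H.un (by linarith)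
    (le_trans (le_of_eq (by push_cast; ring)) H.cd)
    (rs_mono2 hR hW.nn (pw_pos P2 _) (pw_le P2 (by omega)) (by positivity) ?_)
  refine le_trans ?_ (pw_mono P2 (show c2 + (3 * s + 7 + s ^ 3) + 1 ≤ C by omega) (by linarith))
  have a1 := nat_le_pw P2 (3 * s + 7 + s ^ 3)
  have a2 : ((4 * m + 4 : ℕ) : ℝ) ≤ P := by push_cast; linarith [H.mP]
  have a3 : (s : ℝ) ^ 3 * ((4 * m + 4 : ℕ) : ℝ) ≤ s ^ 3 * (P ^ c2 * Z * P) :=
    mul_le_mul_of_nonneg_left (a2.trans (le_mul_of_one_le_left (by linarith) z1)) (by positivity)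
  have a4 : (3 * s + 7 : ℝ) * (P ^ c2 * Z) ≤ (3 * s + 7) * (P ^ c2 * Z * P) :=
    mul_le_mul_of_nonneg_left (le_mul_of_one_le_right (by linarith) (by linarith)) (by positivity)
  have a5 := mul_le_mul_of_nonneg_right a1 (show 0 ≤ P ^ c2 * Z * P by positivity)
  have a6 : P ^ (c2 + (3 * s + 7 + s ^ 3) + 1) * Z =
      P ^ (3 * s + 7 + s ^ 3) * (P ^ c2 * Z * P) := by ring
  rw [a6]
  push_cast at a5 a3 ⊢
  linarith

theorem al1 {β : Type} {w g : β → ℝ} {α : ℝ} (sν : Summable w) (w0 : ∀ z, 0 ≤ w z)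
    (pos : 0 < ∑' z, w z) (α0 : 0 < α) (g1 : ∀ z, 0 ≤ α * g z ∧ α * g z ≤ 1)
    (hd : ∑' z, w z ≤ ∑' z, w z * g z) : α ≤ 1 := by
  have g2 : ∀ z, g z ≤ 1 / α := fun z => by rw [le_div_iff₀ α0]; linarith [(g1 z).2]
  have g3 : ∀ z, 0 ≤ g z := fun z => nonneg_of_mul_nonneg_right (g1 z).1 α0
  have a1 : ∑' z, w z * g z ≤ ∑' z, w z * (1 / α) :=
    (sm_mul sν w0 (B := 1 / α) fun z => by rw [abs_of_nonneg (g3 z)]; exact g2 z).tsum_le_tsum
      (fun z => mul_le_mul_of_nonneg_left (g2 z) (w0 z)) (sν.mul_right _)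
  rw [tsum_mul_right] at a1
  have a2 : 1 ≤ 1 / α := le_of_mul_le_mul_left (by linarith) pos
  rwa [le_div_iff₀ α0, one_mul] at a2

theorem xu {s C1 N : ℕ} {η P X K Z U : ℝ} (n : Nm s C1 N η P X K Z U) (P2 : 2 ≤ P) :
    8 * X ≤ U := by
  have X1 := n.X1
  refine le_trans ?_ n.u2
  have : 8 * X * 1 * 1 ≤ 8 * X * P ^ 2 * X := by gcongr <;> nlinarith
  linarith

theorem nmA {s C1 N : ℕ} {η P X K Z U : ℝ} (n : Nm s C1 N η P X K Z U) (P2 : 2 ≤ P)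
    (sX : (s : ℝ) ≤ X) (K1 : 1 ≤ K) : 2 * s * (N / K) * P ^ 2 ≤ Real.exp (-(2 * X)) := by
  have X1 := n.X1
  have XU := xu n P2
  have a1 : 8 * X * P ^ 2 * X ≤ Real.exp U := n.u2.trans (by linarith [Real.add_one_le_exp U])
  have a2 : 2 * s * P ^ 2 ≤ Real.exp U := le_trans (by
    have : 2 * s * P ^ 2 * 1 ≤ 8 * X * P ^ 2 * X := by gcongr <;> linarith
    linarith) a1
  have a3 : N / K ≤ Real.exp (-(16 * U)) := by
    rw [div_le_iff₀ (by linarith), Real.exp_neg, inv_mul_eq_div, le_div_iff₀ (Real.exp_pos _)]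
    exact n.UK
  calc _ = 2 * s * P ^ 2 * (N / K) := by ring
    _ ≤ Real.exp U * Real.exp (-(16 * U)) := by gcongr
    _ ≤ _ := by rw [← Real.exp_add]; exact Real.exp_le_exp.2 (by linarith)

theorem nmB {s C1 N m : ℕ} {η P X K Z U : ℝ} (n : Nm s C1 N η P X K Z U) (P2 : 2 ≤ P)
    (K1 : 1 ≤ K) (m1 : 1 ≤ m) (hKZ : K ^ (3 * m) ≤ Real.exp Z) :
    (⌈2 * (N : ℝ) ^ (2 * m) / Real.exp (-(2 * X))⌉₊ : ℝ) ≤ Real.exp Z := by
  have X1 := n.X1
  have XU := xu n P2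
  have N0 : (1 : ℝ) ≤ N := by exact_mod_cast n.N1
  have a1 : (1 : ℝ) ≤ N ^ (2 * m) := one_le_pow₀ N0
  have a2 : 1 / Real.exp (-(2 * X)) = Real.exp (2 * X) := by rw [Real.exp_neg, one_div, inv_inv]
  have a3 : 1 ≤ Real.exp (2 * X) := Real.one_le_exp (by linarith)
  have a4 : 3 * Real.exp (2 * X) ≤ K := by
    have b1 : Real.exp (2 * X) * Real.exp 2 ≤ Real.exp (16 * U) := by
      rw [← Real.exp_add]; exact Real.exp_le_exp.2 (by linarith)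
    have b2 : Real.exp (2 * X) * 3 ≤ Real.exp (2 * X) * Real.exp 2 :=
      mul_le_mul_of_nonneg_left (by linarith [Real.add_one_le_exp (2 : ℝ)]) (by linarith)
    linarith [n.UN, n.NK]
  have a5 : (N : ℝ) ^ (2 * m) ≤ K ^ (2 * m) := pow_le_pow_left₀ (by linarith) n.NK _
  have a6 : K ^ (2 * m + 1) ≤ K ^ (3 * m) := pow_le_pow_right₀ K1 (by omega)
  refine (Nat.ceil_lt_add_one (by positivity)).le.trans (le_trans ?_ (a6.trans hKZ))
  rw [div_eq_mul_one_div, a2, pow_succ]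
  have a7 := mul_le_mul a5 a4 (by positivity) (by positivity)
  have a8 := one_le_mul_of_one_le_of_one_le a1 a3
  linarith

theorem nmC {s C1 N : ℕ} {η P X K Z U α : ℝ} (n : Nm s C1 N η P X K Z U)
    (hα : Real.exp (-X) ≤ α) {δ : ℝ} (hδ : δ ≤ Real.exp (-(2 * X))) :
    5 * Real.exp (-(2 * X)) / α + δ + 2 * Real.exp X * Real.exp (-(2 * X)) ≤ η / 2 := by
  have X1 := n.X1
  have eX := n.eX
  have α0 : 0 < α := (Real.exp_pos _).trans_le hα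
  have e1 : Real.exp X * Real.exp (-(2 * X)) = Real.exp (-X) := by
    rw [← Real.exp_add]; congr 1; ring
  have e2 : Real.exp (-(2 * X)) / α ≤ Real.exp (-X) := by
    rw [div_le_iff₀ α0]
    refine le_trans (le_of_eq ?_) (mul_le_mul_of_nonneg_left hα (Real.exp_pos _).le)
    rw [← Real.exp_add]; congr 1; ring
  have e3 : Real.exp (-(2 * X)) ≤ Real.exp (-X) := Real.exp_le_exp.2 (by linarith)
  have e4 : 100 * Real.exp (-X) ≤ η := by
    rw [Real.exp_neg, ← div_eq_mul_inv, div_le_iff₀ (Real.exp_pos _)]; exact eX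
  have e5 := Real.exp_pos (-X)
  rw [mul_div_assoc, mul_assoc, e1]
  linarith

theorem fm8 {b S c V Y : ℝ} (b0 : 0 ≤ b) (S0 : 0 ≤ S) (h : b / 8 ≤ c * S) (hc : c ≤ Real.exp V)
    (hY : V + 3 ≤ Y) : Real.exp (-Y) * b ≤ S := by
  have b1 : Real.exp (-Y) * Real.exp V ≤ 1 / 8 := by
    rw [← Real.exp_add]
    refine (Real.exp_le_exp.2 (show _ ≤ -3 by linarith)).trans ?_
    rw [Real.exp_neg, inv_le_comm₀ (Real.exp_pos _) (by norm_num)]
    have := Real.add_one_le_exp (1 : ℝ)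
    rw [show (3 : ℝ) = (3 : ℕ) * 1 by norm_num, Real.exp_nat_mul]
    exact le_trans (by norm_num) (pow_le_pow_left₀ (by norm_num) this 3)
  have b2 := h.trans (mul_le_mul_of_nonneg_right hc S0)
  refine le_of_mul_le_mul_left ?_ (Real.exp_pos V)
  have b3 := mul_le_mul_of_nonneg_right b1 b0
  linarith

end StA

end Vale.Agent.P057T.Sb
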