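import Vale.Agent.P057T.Sb.StB

/-! Row `START`. -/

open MvPolynomial Finset
open scoped Real BigOperators

namespace Vale.Agent.P057T.Sb

open Vale.Agent.P057T.Eq Vale.Agent.P057T.Cfg Vale.Agent.P057L StA

namespace StA

variable {ι : Type} [Fintype ι] [DecidableEq ι]

open Classical in
/-- Either many boxes carry an increment, or one eighth of the boxes is dense and injective. -/
theorem good (hD : DILB) (hM : MASB) (hI : INVT) (hNp : NAP) {s m N C1 k : ℕ} {G : GT ι} {T : AT ι}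
    {η P X K Z U δ α : ℝ} {A : Finset ℤ} {x0 : ℤ} {l : ι → ℤ} (n : Nm s C1 N η P X K Z U)
    (H : Hs G T s m P K Z) (hC : Cnts G T (4 * m + 4) δ Z) (δ0 : 0 ≤ δ) (δZ : δ ≤ Real.exp (-Z))
    (η0 : 0 < η) (η1 : η ≤ 1) (sX : (s : ℝ) ≤ X) (m1 : 1 ≤ m) (hKZ : K ^ (3 * m) ≤ Real.exp Z)
    (l0 : l ≠ 0) (l1 : ∀ a, l a ≠ 0 → G.w a = 1) (hA : APF (k + 2) A) (hα : Real.exp (-X) ≤ α)
    (hd : ∑' z : ι → ℤ, G.nu T z ≤ ∑' z : ι → ℤ, G.nu T z * fA A α x0 l z)
    (hmg : (∀ z, |α * fA A α x0 l z| ≤ 1) →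
      |G.mn T.sg univ * ∑' β : Bx G m, bw G T (om s K) 1 0 β * (α * fA A α x0 l (ev (pt 0) β)) -
        bm G T (om (m := m) s K) * ∑' z : ι → ℤ, G.nu T z * (α * fA A α x0 l z)| ≤
      Real.exp (-Z) * (G.mn T.sg univ * bm G T (om (m := m) s K))) :
    (∃ F : Finset (Bx G m), Fm G T s K (2 * X) F ∧
      ∀ β ∈ F, 1 + η ≤ 𝔼 t ∈ bz m N, fA A α x0 l (ev (pt t) β)) ∨
    ∃ F : Finset (Bx G m), bm G T (om (m := m) s K) / 8 ≤ ∑ β ∈ F, bw G T (om s K) 1 0 β ∧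
      ∀ β ∈ F, APV (k + 2) ((bz m N).filter fun t => pj x0 l (ev (pt t) β) ∈ A) ∧
        (1 - η) * α * (N : ℝ) ^ m ≤ ((bz m N).filter fun t => pj x0 l (ev (pt t) β) ∈ A).card := by
  have P2 := H.P2
  have Z1 := H.Z1
  have K1 := H.K1
  have X1 := n.X1
  have XU := xu n P2
  have UZ := n.UZ
  have α0 : 0 < α := (Real.exp_pos _).trans_le hα
  have αX : 1 / α ≤ Real.exp X := by
    rw [div_le_iff₀ α0]
    have := mul_le_mul_of_nonneg_left hα (Real.exp_pos X).le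
    rwa [← Real.exp_add, add_neg_cancel, Real.exp_zero] at this
  obtain ⟨g, hg⟩ : ∃ g, g = fA A α x0 l := ⟨_, rfl⟩
  rw [← hg] at hd hmg ⊢
  have g1 : ∀ z, 0 ≤ α * g z ∧ α * g z ≤ 1 := fun z => by
    rw [hg, fA]; split_ifs
    · rw [mul_one_div_cancel α0.ne']; norm_num
    · norm_num
  have g2 : ∀ z, 0 ≤ g z ∧ g z ≤ Real.exp X := fun z => by
    rw [hg, fA]; split_ifs
    · exact ⟨by positivity, αX⟩
    · exact ⟨le_rfl, (Real.exp_pos _).le⟩
  obtain ⟨⟨m0, sν, mν⟩, -, m3⟩ := hM s m ι G T P K Z _ H hC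
  obtain ⟨-, -, -, -, hb, -⟩ := hD s m ι G T P K 1 H.ok (by linarith) H.ao H.un (by linarith) le_rfl
  have eZ : (1 : ℝ) ≤ Real.exp Z := Real.one_le_exp (by linarith)
  obtain ⟨sw, tw⟩ := m3 1 1 0 le_rfl (by simpa using eZ) one_pos eZ
  simp only [Nat.cast_one, one_smul, zero_add, mul_one, one_pow, inv_one] at sw tw
  have Zτ : Real.exp (-Z) ≤ Real.exp (-(2 * X)) := Real.exp_le_exp.2 (by linarith)
  have δτ := δZ.trans Zτ
  have δ1 : δ < 1 := δZ.trans_lt (Real.exp_lt_one_iff.2 (by linarith))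
  have α1 : α ≤ 1 := al1 sν (fun z => (Real.exp_pos _).le) (by
    have := mul_pos (sub_pos.2 δ1) m0
    linarith [(abs_le.1 mν).1]) α0 g1 hd
  have hmean := mean hD hM hI H hC δ0 δτ ((Real.exp_le_exp.2 (by linarith)).trans hα) α1 n.N1
    (nmA n P2 sX K1) g1 α0 hd ((hmg fun z => abs_le.2 ⟨by linarith [(g1 z).1], (g1 z).2⟩).trans
      (mul_le_mul_of_nonneg_right Zτ (mul_pos m0 hb).le))
  have w0 : ∀ β : Bx G m, 0 ≤ bw G T (om s K) 1 0 β := fun β => (bw_pos G T _ _ _ β).le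
  have ne := SV.bz_ne (m := m) n.N1
  by_cases hi : Real.exp (-(2 * X)) * bm G T (om (m := m) s K) <
      ∑' β : Bx G m, bw G T (om s K) 1 0 β *
        if 1 + η ≤ 𝔼 t ∈ bz m N, g (ev (pt t) β) then (1 : ℝ) else 0
  · obtain ⟨F, f1, f2⟩ := fam sw w0 _ hi
    exact Or.inl ⟨F, f2, f1⟩
  push Not at hi
  have N0 : (0 : ℝ) < N := by exact_mod_cast n.N1
  have c0 : 0 < ⌈2 * (N : ℝ) ^ (2 * m) / Real.exp (-(2 * X))⌉₊ := Nat.ceil_pos.2 (by positivity)
  obtain ⟨np1, np2⟩ := hNp s m ι G T P K Z _ N _ l H hC δ1.le c0 (nmB n P2 K1 m1 hKZ) l0 l1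
  have hbad := np1.trans (mul_le_mul_of_nonneg_right (show _ ≤ Real.exp (-(2 * X)) by
    rw [div_le_iff₀ (by exact_mod_cast c0), mul_comm (Real.exp _), ← div_le_iff₀ (Real.exp_pos _)]
    exact Nat.le_ceil _) hb.le)
  have hgood := split3 sw w0 (B := Real.exp X) (fun β => ⟨expect_nonneg fun t _ => (g2 _).1,
    expect_le ne fun t _ => (g2 _).2⟩) hb η0 η1 δ0
    (by linarith [(abs_le.1 tw).2]) hmean _ (Real.exp_pos _).le hbad hi (nmC n hα δτ)
  obtain ⟨F0, f1, f2⟩ := fam sw w0 _ hgood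
  refine Or.inr ⟨F0, f2, fun β hβ => ⟨np2 k A x0 β hA fun t ht t' ht' e => ?_, ?_⟩⟩
  · by_contra hne
    exact (f1 β hβ).2 ⟨t, ht, t', ht', hne, e⟩
  · have h1 := (f1 β hβ).1
    simp only [hg, fA] at h1
    rw [expect_eq_sum_div_card, ← sum_filter, sum_const, nsmul_eq_mul, SV.bz_card,
      le_div_iff₀ (by push_cast; exact pow_pos N0 _), mul_one_div, le_div_iff₀ α0] at h1
    push_cast at h1
    linarith

theorem nmD {s C1 N : ℕ} {η P X K Z U : ℝ} (n : Nm s C1 N η P X K Z U) (P2 : 2 ≤ P)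
    (sX : (s : ℝ) ≤ X) : 2 * X + 1 + s * P * (1 : ℕ) ≤ U := by
  have X1 := n.X1
  have a1 : s * P ≤ X * P := by gcongr
  have a2 : X * P * 100 ≤ X * P * X := by gcongr
  have a3 : X * 2 ≤ X * P := by gcongr
  have a4 : 0 ≤ X ^ C1 := by positivity
  push_cast; linarith [n.u1]

theorem nmE {C1 C : ℕ} {X : ℝ} (X1 : 100 ≤ X) (h : C1 + 1 ≤ C) : X ^ C1 + 3 ≤ X ^ C := by
  refine le_trans ?_ (pow_le_pow_right₀ (by linarith) h)
  rw [pow_succ]
  nlinarith [one_le_pow₀ (n := C1) (show 1 ≤ X by linarith)]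

end StA

theorem start (hB : BOXS) (hCt : COUNT) (hD : DILB) (hM : MASB) (hI : INVT) (hG0 : MARG0)
    (hNp : NAP) (hSu : SUBL) : START := by
  classical
  intro k s k1 s1
  obtain ⟨η, η0, η1, C1, hbox⟩ := hB k k1
  obtain ⟨c2, hS⟩ := hSu s
  obtain ⟨c3, hct⟩ := cnts s c2 hCt
  obtain ⟨c4, hmg⟩ := hG0 s
  refine ⟨η / 4, by positivity, by linarith, C1 + 5 + c2 + c3 + c4 + 40 * s + ⌈100 / η⌉₊, ?_⟩
  intro m N ι _ _ G T WW P K Z X α A x0 l H hW hX hm1 hm2 hN hK hKZ hR l0 l1 hA hα hd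
  generalize hC : C1 + 5 + c2 + c3 + c4 + 40 * s + ⌈100 / η⌉₊ = C at *
  have cX : ∀ a : ℕ, a ≤ C → (a : ℝ) ≤ X := fun a ha => (Nat.cast_le.2 ha).trans hX
  have n := nums (C1 := C1) (C := C) (by omega) s1 η0 (by linarith)
    ((Nat.le_ceil _).trans (cX _ (by omega))) H.P2 hN hK H.KZ
  generalize (P * X) ^ (C1 + 3) = U at n
  have P2 := H.P2
  have Z1 := H.Z1
  have X1 := n.X1
  have XU := xu n P2
  have sX := cX s (by omega)
  have m40 : 40 * s * X ≤ m := le_trans (mul_le_mul_of_nonneg_right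
    (by exact_mod_cast (show 40 * s ≤ C by omega)) (by linarith)) hm1
  have m1 : 1 ≤ m := by
    have a1 : (1 : ℝ) ≤ s := by exact_mod_cast s1
    have a2 := one_le_mul_of_one_le_of_one_le a1 (show 1 ≤ X by linarith)
    exact_mod_cast (show ((1 : ℕ) : ℝ) ≤ m by push_cast; linarith)
  have hC2 := hct H hW (show c3 ≤ C by omega) hR
  have ZZ : Z ≤ P ^ c2 * Z := le_mul_of_one_le_left (by linarith) (one_le_pw P2 _)
  have α0 : 0 < α := (Real.exp_pos _).trans_le hα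
  have g2 : ∀ z, 0 ≤ fA A α x0 l z ∧ fA A α x0 l z ≤ Real.exp X := fun z => by
    rw [fA]; split_ifs
    · refine ⟨by positivity, ?_⟩
      rw [div_le_iff₀ α0]
      have := mul_le_mul_of_nonneg_left hα (Real.exp_pos X).le
      rwa [← Real.exp_add, add_neg_cancel, Real.exp_zero] at this
    · exact ⟨le_rfl, (Real.exp_pos _).le⟩
  have up : P ^ c2 * Z ≤ P ^ C * Z := pw_mono P2 (by omega) (by linarith)
  have N0 : (0 : ℝ) ≤ N := Nat.cast_nonneg N
  rcases good hD hM hI hNp n H (cnts_mono H.sg le_rfl ZZ hC2) (Real.exp_pos _).le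
    (Real.exp_le_exp.2 (neg_le_neg ZZ)) η0 (by linarith) sX m1 hKZ l0 l1 hA hα hd
    (hmg m ι G T WW P K Z _ H hW (rs_mono2 hR hW.nn (pw_pos P2 _) (pw_le P2 (by omega))
      (mul_pos (pw_pos P2 c4) (show 0 < Z by linarith)) (pw_mono P2 (by omega) (by linarith)))) with
    ⟨F, f2, f1⟩ | ⟨F0, f2, f1⟩
  · exact Or.inl ((useL hS n s1 H η0 (by linarith) sX m40 hC2 g2 (d := 1) (L := N) (x := 0) le_rfl
      (by push_cast; linarith) (Y := 2 * X) (by linarith) (nmD n P2 sX)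
      (le_mul_of_one_le_right N0 (Real.one_le_exp (by linarith))) le_rfl
      (fun l => by simpa using mul_nonneg (by linarith : 0 ≤ X) N0) f2
      fun β hβ => by simpa [bx] using f1 β hβ).mono up)
  obtain ⟨-, -, -, -, hb, -⟩ := hD s m ι G T P K 1 H.ok (by linarith) H.ao H.un
    (by linarith [H.K1]) le_rfl
  have XP : X ≤ P * X := le_mul_of_one_le_left (by linarith) (by linarith)
  obtain ⟨L, Λ, L1, LN, NL, hΛ, hl, hbx⟩ := hbox X m N (cX _ (by omega)) m1 hm2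
    (((pow_le_pow_left₀ (by linarith) XP _).trans
      (pow_le_pow_right₀ (by linarith) (by omega))).trans hN)
  obtain ⟨a, ha, F1, q1, ⟨β0, hβ0⟩, q2⟩ := pig F0 _ Λ (fun a β => (a.1 = true ∧ a.2.1 ≤ C1 ∧
      1 + η ≤ 𝔼 z ∈ bz m a.2.2.1, bx β a.2.2.2 a.2.1 (fA A α x0 l) z) ∨ (a.1 = false ∧
      (1 + η) ^ (a.2.1 ^ (k + 1)) ≤
        grdV (k + 1) a.2.1 L (bx β a.2.2.2 ((k + 1).factorial ^ 2) (fA A α x0 l))))
    (div_pos hb (by norm_num)) f2
    fun β hβ => hbx α (fun t => pj x0 l (ev (pt t) β) ∈ A) hα (f1 β hβ).1 (f1 β hβ).2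
  obtain ⟨p1, p2, p3, p4, p5⟩ := hl a ha
  have XC : 0 ≤ X ^ C1 := pow_nonneg (by linarith) _
  have hFm : ∀ Y, X ^ C1 + 3 ≤ Y → Fm G T s K Y F1 := fun Y hY =>
    fm8 hb.le (sum_nonneg fun β _ => (bw_pos G T _ _ _ β).le) q2 hΛ hY
  have C1X := cX C1 (by omega)
  have L0 : (0 : ℝ) ≤ L := Nat.cast_nonneg L
  rcases hc : a.1 with _ | _
  · have XC' := nmE X1 (show C1 + 1 ≤ C by omega)
    refine Or.inr ⟨a.2.1, L, a.2.2.2, p1, by linarith, L1, LN,
      NL.trans (mul_le_mul_of_nonneg_left (Real.exp_le_exp.2 (by linarith)) L0),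
      fun i => (p5 i).trans (mul_le_mul_of_nonneg_right (Nat.cast_le.2 (by omega)) N0), F1,
      hFm _ XC', fun β hβ => ?_⟩
    rcases q1 β hβ with h | h
    · rw [hc] at h; exact absurd h.1 (by simp)
    · exact (pow_le_pow_left₀ (by linarith) (by linarith) _).trans h.2
  · have d1 : (a.2.1 : ℝ) ≤ X := by
      rcases q1 β0 hβ0 with h | h
      · exact (Nat.cast_le.2 h.2.1).trans C1X
      · rw [hc] at h; exact absurd h.1 (by simp)
    have XP0 : 0 ≤ X * P := mul_nonneg (by linarith) (by linarith)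
    have u0 : 0 ≤ X * P * X := mul_nonneg XP0 (by linarith)
    have u1 : s * P * a.2.1 ≤ X * P * X :=
      mul_le_mul (mul_le_mul_of_nonneg_right sX (by linarith)) d1 (Nat.cast_nonneg _) XP0
    have u2 := n.u1
    refine Or.inl ((useL hS n s1 H η0 (by linarith) sX m40 hC2 g2 p1 d1 (by linarith) (by linarith)
      (NL.trans (mul_le_mul (Nat.cast_le.2 p3) (Real.exp_le_exp.2 (by linarith))
        (Real.exp_pos _).le (Nat.cast_nonneg _))) p4
      (fun i => (p5 i).trans (mul_le_mul_of_nonneg_right C1X N0))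
      (hFm _ le_rfl) fun β hβ => ?_).mono up)
    rcases q1 β hβ with h | h
    · exact h.2.2
    · rw [hc] at h; exact absurd h.1 (by simp)

end Vale.Agent.P057T.Sb
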